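import Vale.Agent.P301.H450.Fuj
import Vale.Agent.P301.H599.CY5

/-! P301, H599 (ZL): nef classes with zero self-intersection are isotropic. -/

open scoped Manifold ContDiff ComplexOrder Topology Matrix
open Filter Metric Set

set_option linter.all false

noncomputable section

namespace Vale.Agent.P301.H599.ZL

open Vale.Agent.P272.K Vale.Agent.P299.H954 Vale.Agent.P301.H599 Vale.Agent.P301.H450
open Vale.Agent.P272.K.INT (IsClosedForm IsDensity intX)

variable {d : ℕ} {X : Type} [TopologicalSpace X] [ChartedSpace (Cm d) X]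
  [IsManifold 𝓘(ℂ, Cm d) ω X] [T2Space X] [CompactSpace X] [ConnectedSpace X]
  {w s θ : Chart d X → Cm d → Matrix (Fin d) (Fin d) ℂ}

/-- the integral `∫ (θ + t w)^d` depends continuously on `t` -/
lemma continuous_int (hθ : IsClosedForm θ) (hw : IsClosedForm w) :
    Continuous fun t : ℝ => intX fun e z => (θ e z + (t : ℂ) • w e z).det.re := by
  rw [continuous_iff_continuousAt]
  intro t
  exact (INT.hasDerivAt_intX (m := d) (D := fun t e z => (θ e z + (t : ℂ) • w e z).det.re)
    (fun t => (hθ.add (hw.smul (t : ℂ))).isDensity)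
    (fun e x _ => INT.isPolyN_det _ _) t).continuousAt

/-- **Nef classes with `∫ θ^d = 0` are isotropic.** -/
theorem q_eq_zero_of_int (hd : 0 < d) (h : IsSymplectic d X w s) (hθ : IsReal11 θ)
    (hn : IsNef w θ) (h0 : intX (fun e z => (θ e z).det.re) = 0) : q s θ θ = 0 := by
  haveI : Nonempty X := inferInstance
  have hw := h.kahler
  obtain ⟨u0, κ0, hu0, hk0⟩ := exists_rf h hw
  have S := SData.of h hk0
  have V := vol_pos S
  have hdR : (0 : ℝ) < d := by exact_mod_cast hd
  have c0 := INT.IsKahler.isClosedForm hw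
  have cθ := hθ.toIsClosedForm
  have hq0 := q_nef_self h hk0 hw hθ hn
  have hq1 : 0 ≤ q s θ w := q_nef_nonneg h hk0 hw hθ hn (isReal11_kahler hw)
    fun e x hx => (hw.posDef e x hx).posSemidef
  have hww : 0 ≤ q s w w := q_nonneg S (fun e x hx => (hw.posDef e x hx).posSemidef)
    (fun e x hx => (hw.posDef e x hx).posSemidef)
  have key : ∀ ε : ℝ, 0 < ε → Real.sqrt ((q s θ θ / (d * vol s)) ^ d) * vol s ≤
      intX fun e z => (θ e z + (ε : ℂ) • w e z).det.re := by
    intro ε hε
    obtain ⟨u, hu, hup⟩ := hn (ε / 2) (by positivity)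
    have c1 : IsClosedForm fun e z => θ e z + (ε : ℂ) • w e z := cθ.add (c0.smul _)
    have r1 : IsReal11 fun e z => (θ e z + (ε : ℂ) • w e z) + ddc u e z :=
      (hθ.add ((isReal11_kahler hw).smul ε)).add (isReal11_ddc hu)
    have hp : ∀ e x, At e x → (θ e (e x) + (ε : ℂ) • w e (e x) + ddc u e (e x)).PosDef := by
      intro e x hx
      have h1 : θ e (e x) + (ε : ℂ) • w e (e x) + ddc u e (e x) = (ε / 2) • w e (e x) +
          (θ e (e x) + ((ε / 2 : ℝ) : ℂ) • w e (e x) + ddc u e (e x)) := by
        ext a b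
        simp only [Matrix.add_apply, Matrix.smul_apply, smul_eq_mul, Complex.real_smul]
        push_cast
        ring
      rw [h1]
      exact ((hw.posDef e x hx).smul (by positivity)).add_posSemidef (hup e x hx)
    have hk : IsKahler fun e z => (θ e z + (ε : ℂ) • w e z) + ddc u e z := isKahler_of r1 hp
    have hF := fujiki h hk
    have hqq : q s (fun e z => (θ e z + (ε : ℂ) • w e z) + ddc u e z)
        (fun e z => (θ e z + (ε : ℂ) • w e z) + ddc u e z) =
        q s θ θ + 2 * ε * q s θ w + ε ^ 2 * q s w w := by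
      rw [q_addH S c1 hu, q_add_left S cθ (c0.smul _) c1, q_add_right S cθ cθ (c0.smul _),
        q_add_right S (c0.smul _) cθ (c0.smul _), q_smul_left, q_smul_left, q_smul_right S,
        q_smul_right S, q_symm S w θ]
      ring
    have h2 : intX (fun e z => (θ e z + (ε : ℂ) • w e z).det.re) =
        intX fun e z => ((θ e z + (ε : ℂ) • w e z) + ddc u e z).det.re :=
      (INT.intX_det_add_cHess c1 hu).symm
    rw [h2, hF, hqq]
    have hden : 0 < (d : ℝ) * vol s := mul_pos hdR V
    have h3 : 0 ≤ 2 * ε * q s θ w := mul_nonneg (by linarith) hq1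
    have h4 : 0 ≤ ε ^ 2 * q s w w := mul_nonneg (by positivity) hww
    have h5 : q s θ θ / (d * vol s) ≤ (q s θ θ + 2 * ε * q s θ w + ε ^ 2 * q s w w) / (d * vol s) :=
      div_le_div_of_nonneg_right (by linarith) hden.le
    have h6 : 0 ≤ q s θ θ / (d * vol s) := div_nonneg hq0 hden.le
    exact mul_le_mul_of_nonneg_right (Real.sqrt_le_sqrt (pow_le_pow_left₀ h6 h5 d)) V.le
  have hc := (continuous_int cθ c0).tendsto 0
  have h1 : intX (fun e z => (θ e z + ((0 : ℝ) : ℂ) • w e z).det.re) = 0 := by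
    refine Eq.trans (INT.intX_congr fun e x _ => ?_) h0
    rw [Complex.ofReal_zero, zero_smul, add_zero]
  rw [h1] at hc
  have hden : 0 < (d : ℝ) * vol s := mul_pos hdR V
  have h6 : 0 ≤ q s θ θ / (d * vol s) := div_nonneg hq0 hden.le
  suffices hr : q s θ θ / (d * vol s) = 0 by
    rcases div_eq_zero_iff.1 hr with h7 | h7
    · exact h7
    · exact absurd h7 hden.ne'
  generalize q s θ θ / (d * vol s) = r at *
  have h2 : Real.sqrt (r ^ d) * vol s ≤ 0 := by
    refine ge_of_tendsto (hc.mono_left (nhdsWithin_le_nhds (s := Ioi (0 : ℝ)))) ?_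
    filter_upwards [self_mem_nhdsWithin] with ε hε
    exact key ε hε
  have h3 : Real.sqrt (r ^ d) = 0 := by
    have h4 := Real.sqrt_nonneg (r ^ d)
    by_contra hne
    have h5 : 0 < Real.sqrt (r ^ d) := lt_of_le_of_ne h4 (Ne.symm hne)
    have := mul_pos h5 V
    linarith
  have h4 : r ^ d = 0 := (Real.sqrt_eq_zero (pow_nonneg h6 d)).1 h3
  by_contra hne
  exact pow_ne_zero d hne h4

end Vale.Agent.P301.H599.ZL
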