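import Vale.Agent.P301.H599.ZL.CYZ
import Vale.Agent.P301.H599.ZL.Iso
import Vale.Agent.P301.H450.EffCYR
import Vale.Agent.P301.H949.Six

/-! P301, H599 (ZL): the effective theorems for nef isotropic line bundles which have a
plurisubharmonic metric with zero Lelong numbers. -/

open scoped Manifold ContDiff ComplexOrder Topology Matrix
open Filter Metric Set

set_option linter.all false

noncomputable section

namespace Vale.Agent.P301.H599.ZL

open Vale.Agent.P272.K Vale.Agent.P301.H599 Vale.Agent.P301.H450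
open Vale.Agent.P301.H724 (HasSec)
open Vale.Agent.P301.H949 (OnlyL)

/-- The line bundle `L` on the irreducible holomorphic symplectic Kähler manifold `X` (with a Kähler
metric `w` and a holomorphic symplectic form `s`, `H⁰(X, Ω²) = ℂ s`) is nef with `c₁(L)^d = 0`, and
`c₁(L)` contains a closed positive current all of whose Lelong numbers are zero. Here `ρ` is a
smooth metric of `L` with curvature `θ`; `L` is nef: for every `ε > 0` there is a smooth function
`u` with `θ + ε w + i∂∂̄u ≥ 0`; `∫ θ^d = 0`; and `ψ` are the weights of a singular metric of `L` with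
semipositive curvature current and zero Lelong numbers. -/
def IsZeroLelong {d : ℕ} {X : Type} [TopologicalSpace X] [ChartedSpace (Cm d) X]
    [IsManifold 𝓘(ℂ, Cm d) ω X] [T2Space X] [CompactSpace X] {ι : Type}
    (L : LineBundle d X ι) : Prop :=
  ∃ (w s : Chart d X → Cm d → Matrix (Fin d) (Fin d) ℂ) (ρ : ι → X → ℝ) (ψ : ι → X → EReal),
    IsSymplectic d X w s ∧ IsMetric L ρ ∧
    (∀ ε : ℝ, 0 < ε → ∃ u : X → ℝ, Smooth (d := d) u ∧ ∀ e x, At e x →
      (curvature L ρ e (e x) + (ε : ℂ) • w e (e x) + ddc u e (e x)).PosSemidef) ∧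
    INT.intX (fun (e : Chart d X) z => (curvature L ρ e z).det.re) = 0 ∧
    IsPshMetric L ψ ∧
    ∀ i (e : Chart d X) x, At e x → x ∈ L.U i → lelong (fun z => ψ i (e.symm z)) (e x) = 0

section

variable {d : ℕ} {X : Type} [TopologicalSpace X] [ChartedSpace (Cm d) X]
  [IsManifold 𝓘(ℂ, Cm d) ω X] [T2Space X] [CompactSpace X] [ConnectedSpace X]
  [SimplyConnectedSpace X] {ι : Type} {L : LineBundle d X ι}

/-- **Effective nonvanishing** under zero Lelong numbers. -/
theorem sec_zl (h : IsZeroLelong L) : HasSec L (Mb d).factorial := by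
  obtain ⟨w, s, ρ, ψ, hs, hρ, hn, h0, hψ, hz⟩ := h
  by_cases hex : IsExact (curvature L ρ)
  · exact H724.hasSec_of_exact hρ hex _
  have hd := pos_of_not_exact hex
  have hnef : IsNef w (curvature L ρ) := hn
  have hq := q_eq_zero_of_int hd hs (isReal11_curvature hρ) hnef h0
  obtain ⟨x⟩ : Nonempty X := inferInstance
  obtain ⟨e, hx⟩ : ∃ e : Chart d X, At e x :=
    ⟨chartAt (Cm d) x, chart_mem_atlas _ _, mem_chart_source _ x⟩
  obtain ⟨n, hn2⟩ := H599.BE.even_dim (hs.form.alt e x hx) (hs.nondeg e x hx)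
  exact eff_nonvanishing_cy (n := n) hs hρ (by omega) (by omega) hnef hq hex
    fun p hp => cy_of_zl id hs hρ (by omega) (by omega) hnef hex hψ hz hp

end

section four

variable {X : Type} [TopologicalSpace X] [ChartedSpace (Cm 4) X]
  [IsManifold 𝓘(ℂ, Cm 4) ω X] [T2Space X] [CompactSpace X] [ConnectedSpace X]
  [SimplyConnectedSpace X] {w s : Chart 4 X → Cm 4 → Matrix (Fin 4) (Fin 4) ℂ} {ι : Type}
  {L : LineBundle 4 X ι} {ρ : ι → X → ℝ} {ψ : ι → X → EReal}

/-- **Fourfolds**: a pencil without fixed divisor, under zero Lelong numbers. -/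
theorem mobile_four_zl (hs : IsSymplectic 4 X w s) (hρ : IsMetric L ρ)
    (hn : IsNef w (curvature L ρ))
    (h0 : INT.intX (fun (e : Chart 4 X) z => (curvature L ρ e z).det.re) = 0)
    (hne : ¬ IsExact (curvature L ρ)) (hψ : IsPshMetric L ψ)
    (hz : ∀ i (e : Chart 4 X) x, At e x → x ∈ L.U i →
      lelong (fun z => ψ i (e.symm z)) (e x) = 0) : HasMobilePair L (Nat.factorial 50) :=
  mobile_four_cy hs hρ hn (q_eq_zero_of_int (by norm_num) hs (isReal11_curvature hρ) hn h0) hne
    fun p hp => cy_of_zl id hs hρ (n := 2) (by norm_num) (by norm_num) hn hne hψ hz hp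

end four

section six

variable {X : Type} [TopologicalSpace X] [ChartedSpace (Cm 6) X]
  [IsManifold 𝓘(ℂ, Cm 6) ω X] [T2Space X] [CompactSpace X] [ConnectedSpace X]
  [SimplyConnectedSpace X] {w s : Chart 6 X → Cm 6 → Matrix (Fin 6) (Fin 6) ℂ} {ι : Type}
  {L : LineBundle 6 X ι} {ρ : ι → X → ℝ} {ψ : ι → X → EReal}

/-- **Sixfolds**: a pencil without fixed divisor, under zero Lelong numbers, if all effective
classes are proportional to `c₁(L)`. -/
theorem mobile_six_zl (hs : IsSymplectic 6 X w s) (hρ : IsMetric L ρ)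
    (hn : IsNef w (curvature L ρ))
    (h0 : INT.intX (fun (e : Chart 6 X) z => (curvature L ρ e z).det.re) = 0)
    (hne : ¬ IsExact (curvature L ρ)) (hψ : IsPshMetric L ψ)
    (hz : ∀ i (e : Chart 6 X) x, At e x → x ∈ L.U i →
      lelong (fun z => ψ i (e.symm z)) (e x) = 0) (ho : OnlyL L ρ) :
    HasMobilePair L (Nat.factorial 357) := by
  have hq := q_eq_zero_of_int (by norm_num) hs (isReal11_curvature hρ) hn h0
  have hCY : ∀ p : ℝ, 0 ≤ p → CYStatement (id : X → X) L ρ w 3 1 p := fun p hp =>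
    cy_of_zl id hs hρ (n := 3) (by norm_num) (by norm_num) hn hne hψ hz hp
  refine mobile_of_fracPair (M := 357) (by norm_num) hs hρ hn hne fun r κ Q ρQ hQ => ?_
  have hCYQ := hQ.cy hρ hCY
  refine H949.frac_six (F := id) (M₀ := Mb 6) hs hQ.met (hQ.nef hn) (hQ.iso hs hρ hq)
    (hQ.not_exact hne) (fun r' κ' Q' ρQ' hQ' => hQ'.cy hQ.met hCYQ) (fun r' κ' Q' ρQ' hQ' => ?_)
    (H949.onlyL_root hQ ho)
  have hnQ := hQ.nef hn
  have hqQ := hQ.iso hs hρ hq
  have hneQ := hQ.not_exact hne
  have hχ := (H599.BE.chi0_pos_of_nef (by norm_num) hs (isReal11_curvature hρ) hn hne hq).ne'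
  exact exists_frac (by norm_num) hs hQ'.met (hQ'.nef hnQ) (hQ'.iso hs hQ.met hqQ)
    (hQ'.not_exact hneQ)
    (formsFor_cy (n := 3) hs.kahler hQ'.met (by norm_num) (by norm_num)
      (hQ'.cy hQ.met hCYQ) hχ)

end six

end Vale.Agent.P301.H599.ZL
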