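import Vale.Agent.P301.H599.ZL.Fz
import Vale.Agent.P301.H794.Mix

/-! P301, H599 (ZL): uniform exponential integrability of all orders above a plurisubharmonic metric
with zero Lelong numbers. Adapted from `H794.Quant`, `H794.Global`, `H794.Mix`. -/

open scoped Manifold ContDiff ComplexOrder Topology ENNReal
open Filter Metric Set MeasureTheory

set_option linter.all false

noncomputable section

namespace Vale.Agent.P301.H599.ZL

open Vale.Agent.P272.K Vale.Agent.P272.K.QN Vale.Agent.P301.H599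

variable {d : ℕ} {X : Type} [TopologicalSpace X] [ChartedSpace (Cm d) X]
  [IsManifold 𝓘(ℂ, Cm d) ω X] [CompactSpace X]
  {ι : Type} {L : LineBundle d X ι} {ρ : ι → X → ℝ} {ψ : ι → X → EReal} {w : Fm d X} {A C₀ : ℝ}

/-- **Uniform exponential integrability.** -/
theorem exists_exp_bound [PreconnectedSpace X] (hw : IsKahler w) (hρ : IsMetric L ρ) (hz : ZeroLel (d := d) L ψ) (hA : 0 ≤ A) {p : ℝ}
    (hp : 0 ≤ p) {e : Chart d X} {x : X} (hx : At e x) :
    ∃ r : ℝ, 0 < r ∧ closedBall (e x) r ⊆ e.target ∧ ∃ K : ℝ≥0∞, K ≠ ⊤ ∧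
      ∀ v : X → ℝ, Fz L ρ ψ w A C₀ v →
        ∫⁻ z in ball (e x) r, ENNReal.ofReal (Real.exp (-(p * v (e.symm z)))) ≤ K := by
  set c := e x with hcdef
  obtain ⟨R', hR', hRe⟩ := Metric.nhds_basis_closedBall.mem_iff.1 hx.nhds_target
  obtain ⟨R, hR, hR3⟩ : ∃ R : ℝ, 0 < R ∧ 3 * R ≤ R' := ⟨R' / 3, by positivity, by linarith⟩
  have hc3 : closedBall c (3 * R) ⊆ e.target := (closedBall_subset_closedBall hR3).trans hRe
  have hc2 : closedBall c (2 * R) ⊆ e.target :=
    (closedBall_subset_closedBall (by linarith)).trans hc3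
  obtain ⟨T, hT0, hT⟩ := exists_psd (L := L) (ρ := ρ) (ψ := ψ) (C₀ := C₀) hw hA hx.1
    (isCompact_closedBall c (3 * R)) hc3
  set a : ℝ := p * (T * d * R ^ 2) with ha
  have ha0 : 0 ≤ a := by positivity
  set δ : ℝ := 1 / (2 * (p + 1)) with hδ
  have hδ0 : 0 < δ := by positivity
  have hpδ : p * δ ≤ 1 / 2 := by
    rw [hδ, mul_one_div, div_le_div_iff₀ (by positivity) (by norm_num)]
    linarith
  set s : ℝ := 2 * R * Real.exp (-(2 * (Real.log 32 + a))) with hs
  have hs0 : 0 < s := by positivity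
  have hl32 : 0 < Real.log 32 := Real.log_pos (by norm_num)
  obtain ⟨r, hr0, hrs, hrR, hslope⟩ := exists_slope (w := w) (A := A) (L := L) (ρ := ρ) (ψ := ψ) (C₀ := C₀)
    hρ hz hx.1 (c := c) (R₀ := 2 * R) (R₁ := 3 * R) (δ := δ) (s := s) (by positivity)
    (by linarith) hc3 hδ0 hs0
  obtain ⟨M, hM⟩ := exists_low (w := w) (A := A) (L := L) (ρ := ρ) (ψ := ψ) (C₀ := C₀) hρ hz (e := e)
    hx.1 (c := c) (R := 2 * R) (by positivity) (ball_subset_closedBall.trans hc2)
  set Lg : ℝ := Real.log (2 * R / r) with hL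
  have hLL : Lg = Real.log (2 * R) - Real.log r := Real.log_div (by positivity) hr0.ne'
  have hL1 : 2 * (Real.log 32 + a) ≤ Lg := by
    have h1 := Real.log_le_log hr0 hrs.le
    rw [hs, Real.log_mul (by positivity) (Real.exp_pos _).ne', Real.log_exp] at h1
    linarith
  have hL0 : 0 ≤ Lg := by linarith
  set B : ℝ := δ * Lg with hB
  have hB0 : 0 ≤ B := by positivity
  set q : ℝ := p * (B + T * d * R ^ 2) with hq
  have hq0 : 0 ≤ q := by positivity
  set t : ℝ := Real.exp (-q) / 4 with ht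
  have ht0 : 0 < t := by positivity
  have ht1 : 2 * t < 1 := by
    have : Real.exp (-q) ≤ 1 := Real.exp_le_one_iff.2 (by linarith)
    rw [ht]; linarith
  have htq : q ≤ -Real.log (2 * t) := by
    have h1 : 2 * t = Real.exp (-q) / 2 := by rw [ht]; ring
    rw [h1, Real.log_div (Real.exp_pos _).ne' (by norm_num), Real.log_exp]
    have := Real.log_pos (show (1:ℝ) < 2 by norm_num)
    linarith
  obtain ⟨K, hK, hKf⟩ := H794.polydisc_exp d (R := R) (A := T) (B := B) (p := p) (r := t) hR hT0 hB0 hp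
    ht0 ht1 htq
  -- the radius
  have hrt : 2 * r ≤ t / 2 * R := by
    have h1 : 16 * r ≤ Real.exp (-q) * R := by
      rw [← Real.log_le_log_iff (by positivity) (by positivity),
        Real.log_mul (by norm_num) hr0.ne', Real.log_mul (Real.exp_pos _).ne' hR.ne', Real.log_exp]
      have h2 : Real.log r = Real.log 2 + Real.log R - Lg := by
        rw [hLL, Real.log_mul (by norm_num) hR.ne']; ring
      have h3 : Real.log 32 = Real.log 16 + Real.log 2 := by
        rw [← Real.log_mul (by norm_num) (by norm_num)]; norm_num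
      have h4 : q = p * δ * Lg + a := by rw [hq, hB, ha]; ring
      have h5 : p * δ * Lg ≤ 1 / 2 * Lg := mul_le_mul_of_nonneg_right hpδ hL0
      linarith
    rw [ht]; linarith
  have hr1 : r ≤ R := by
    have h1 : t / 2 * R ≤ R := by nlinarith
    linarith
  refine ⟨r, hr0, (closedBall_subset_closedBall (by linarith)).trans hc2,
    ENNReal.ofReal (Real.exp (p * M)) * K, ENNReal.mul_ne_top ENNReal.ofReal_ne_top hK,
    fun v hv => ?_⟩
  obtain ⟨z, hzm, hzy⟩ := hslope v hv
  obtain ⟨y₀, hy₀, hy₀M⟩ := hM v hv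
  set N : ℝ := v (e.symm z) + B with hN
  have hNM : -M ≤ N := hy₀M.trans (hzy y₀ (ball_subset_closedBall hy₀))
  have hzd : dist z c ≤ r := hzm
  have hsub2 : closedBall z R ⊆ closedBall c (2 * R) := by
    refine closedBall_subset_closedBall' ?_
    linarith
  have hsub3 : closedBall z R ⊆ closedBall c (3 * R) :=
    hsub2.trans (closedBall_subset_closedBall (by linarith))
  have hcd : ∀ y ∈ closedBall z R, ContDiffAt ℝ ∞ (fun y => v (e.symm y)) y := fun y hy =>
    hv.cd hx.1 (hc3 (hsub3 hy))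
  have key := hKf z (fun y => v (e.symm y) - N)
    (fun y hy => ((hcd y hy).of_le (by norm_cast)).sub contDiffAt_const)
    (fun y hy => by
      have h1 : cHess (fun y => v (e.symm y) - N) y = cHess (fun y => v (e.symm y)) y := by
        have h2 : ContDiffAt ℝ 2 (fun y => v (e.symm y)) y := (hcd y hy).of_le (by norm_cast)
        have h3 := cHess_sub h2 (contDiffAt_const (c := N))
        have h4 := Vale.Agent.P272.K.C2.cHess_const (z := y) N
        rw [h4, sub_zero] at h3
        exact h3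
      rw [h1]
      exact hT v hv y (hsub3 hy))
    (fun y hy => by
      have := hzy y (hsub2 hy)
      linarith)
    (by linarith)
  have hbb : ball c r ⊆ ball z (t / 2 * R) := by
    refine ball_subset_ball' ?_
    rw [dist_comm]
    linarith
  calc ∫⁻ y in ball c r, ENNReal.ofReal (Real.exp (-(p * v (e.symm y))))
      ≤ ∫⁻ y in ball z (t / 2 * R), ENNReal.ofReal (Real.exp (-(p * v (e.symm y)))) :=
        lintegral_mono_set hbb
    _ = ∫⁻ y in ball z (t / 2 * R), ENNReal.ofReal (Real.exp (-(p * N))) *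
          ENNReal.ofReal (Real.exp (-(p * (v (e.symm y) - N)))) := by
        refine lintegral_congr fun y => ?_
        rw [← ENNReal.ofReal_mul (Real.exp_pos _).le, ← Real.exp_add]
        congr 2
        ring
    _ = ENNReal.ofReal (Real.exp (-(p * N))) *
          ∫⁻ y in ball z (t / 2 * R), ENNReal.ofReal (Real.exp (-(p * (v (e.symm y) - N)))) := by
        rw [lintegral_const_mul' _ _ ENNReal.ofReal_ne_top]
    _ ≤ ENNReal.ofReal (Real.exp (p * M)) * K := by
        refine mul_le_mul' (ENNReal.ofReal_le_ofReal (Real.exp_le_exp.2 ?_)) key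
        nlinarith

/-- uniform exponential integrability over compact subsets of a chart -/
theorem exists_compact_bound [PreconnectedSpace X] (hw : IsKahler w) (hρ : IsMetric L ρ) (hz : ZeroLel (d := d) L ψ) (hA : 0 ≤ A) {p : ℝ}
    (hp : 0 ≤ p) {e : Chart d X} (he : e ∈ atlas (Cm d) X) {K : Set (Cm d)} (hK : IsCompact K)
    (hKe : K ⊆ e.target) :
    ∃ B : ℝ≥0∞, B ≠ ⊤ ∧ ∀ v : X → ℝ, Fz L ρ ψ w A C₀ v →
      ∫⁻ z in K, ENNReal.ofReal (Real.exp (-(p * v (e.symm z)))) ≤ B := by
  refine hK.induction_on (p := fun S => ∃ B : ℝ≥0∞, B ≠ ⊤ ∧ ∀ v : X → ℝ, Fz L ρ ψ w A C₀ v →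
      ∫⁻ z in S, ENNReal.ofReal (Real.exp (-(p * v (e.symm z)))) ≤ B) ?_ ?_ ?_ ?_
  · exact ⟨0, by simp, fun v _ => by simp⟩
  · rintro S S' hSS ⟨B, hB, h⟩
    exact ⟨B, hB, fun v hv => (lintegral_mono_set hSS).trans (h v hv)⟩
  · rintro S S' ⟨B, hB, h⟩ ⟨B', hB', h'⟩
    refine ⟨B + B', ENNReal.add_ne_top.2 ⟨hB, hB'⟩, fun v hv => ?_⟩
    exact (lintegral_union_le _ _ _).trans (add_le_add (h v hv) (h' v hv))
  · intro z hzK
    have hat := At.of_target he (hKe hzK)
    obtain ⟨r, hr, hre, B, hB, h⟩ := exists_exp_bound (L := L) (ρ := ρ) (ψ := ψ) (C₀ := C₀)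
      hw hρ hz hA hp hat
    rw [e.right_inv (hKe hzK)] at h
    exact ⟨ball z r, mem_nhdsWithin_of_mem_nhds (ball_mem_nhds z hr), B, hB, h⟩

variable [T2Space X] [PreconnectedSpace X] {A' : ℝ}

/-- **Mixtures.** For every `p` and all small `δ`, the functions `(1 - δ) u + δ v` are uniformly
exponentially integrable of order `p`. -/
theorem exists_mix (hw : IsKahler w) (hρ : IsMetric L ρ) (hz : ZeroLel (d := d) L ψ) (hA : 0 ≤ A) (hA' : 0 ≤ A') (C : ℝ) {p : ℝ} (hp : 0 ≤ p) :
    ∃ δ₀ : ℝ, 0 < δ₀ ∧ δ₀ ≤ 1 ∧ ∀ e : Chart d X, e ∈ atlas (Cm d) X → ∀ K : Set (Cm d),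
      IsCompact K → K ⊆ e.target → ∃ B : ℝ≥0∞, B ≠ ⊤ ∧
        ∀ u : X → ℝ, Fz L ρ ψ w A C₀ u → ∀ v : X → ℝ, QPsh w A' v → (∃ q, -C ≤ v q) →
          ∀ δ : ℝ, 0 ≤ δ → δ ≤ δ₀ → ∫⁻ z in K, ENNReal.ofReal
            (Real.exp (-(p * ((1 - δ) * u (e.symm z) + δ * v (e.symm z))))) ≤ B := by
  obtain ⟨a, ha, h⟩ := H794.exists_alpha hw hA' C
  refine ⟨min 1 (a / (2 * p + 1)), lt_min one_pos (by positivity), min_le_left _ _,
    fun e he K hK hKe => ?_⟩
  obtain ⟨B, hB, hBv⟩ := h e he K hK hKe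
  obtain ⟨B', hB', hBu⟩ := exists_compact_bound (L := L) (ρ := ρ) (ψ := ψ) (C₀ := C₀)
    hw hρ hz hA (p := 2 * p) (by positivity) he hK hKe
  refine ⟨ENNReal.ofReal (Real.exp (2 * p * |C₀|)) * B' + B,
    ENNReal.add_ne_top.2 ⟨ENNReal.mul_ne_top ENNReal.ofReal_ne_top hB', hB⟩,
    fun u hu v hv hq δ hδ0 hδ => ?_⟩
  have hδ1 : δ ≤ 1 := hδ.trans (min_le_left _ _)
  have hδa : 2 * p * δ ≤ a := by
    have h1 : δ ≤ a / (2 * p + 1) := hδ.trans (min_le_right _ _)
    rw [le_div_iff₀ (by positivity)] at h1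
    nlinarith
  have hpt : ∀ z, ENNReal.ofReal
      (Real.exp (-(p * ((1 - δ) * u (e.symm z) + δ * v (e.symm z))))) ≤
      ENNReal.ofReal (Real.exp (2 * p * |C₀|)) *
        ENNReal.ofReal (Real.exp (-(2 * p * u (e.symm z)))) +
        ENNReal.ofReal (Real.exp (-(2 * p * δ * v (e.symm z)))) := by
    intro z
    rw [← ENNReal.ofReal_mul (Real.exp_pos _).le, ← ENNReal.ofReal_add (by positivity)
      (Real.exp_pos _).le, ← Real.exp_add]
    apply ENNReal.ofReal_le_ofReal
    set s := u (e.symm z) with hs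
    set t := v (e.symm z) with ht
    have hsC : s ≤ |C₀| := (hu.upper _).trans (le_abs_self _)
    have h1 : -(p * ((1 - δ) * s + δ * t)) = -(p * (1 - δ) * s) + -(p * δ * t) := by ring
    have h2 : Real.exp (-(2 * p * (1 - δ) * s)) = Real.exp (-(p * (1 - δ) * s)) ^ 2 := by
      rw [← Real.exp_nat_mul]; congr 1; push_cast; ring
    have h3 : Real.exp (-(2 * p * δ * t)) = Real.exp (-(p * δ * t)) ^ 2 := by
      rw [← Real.exp_nat_mul]; congr 1; push_cast; ring
    have h4 : Real.exp (-(2 * p * (1 - δ) * s)) ≤ Real.exp (2 * p * |C₀| + -(2 * p * s)) := by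
      apply Real.exp_le_exp.2
      have h5 : p * δ * s ≤ p * |C₀| := by
        have h6 : 0 ≤ p * δ := by positivity
        calc p * δ * s ≤ p * δ * |C₀| := mul_le_mul_of_nonneg_left hsC h6
          _ ≤ p * 1 * |C₀| := by gcongr
          _ = p * |C₀| := by ring
      linarith
    rw [h1, Real.exp_add]
    have h7 := two_mul_le_add_sq (Real.exp (-(p * (1 - δ) * s))) (Real.exp (-(p * δ * t)))
    have h8 := Real.exp_pos (-(p * (1 - δ) * s))
    have h9 := Real.exp_pos (-(p * δ * t))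
    have h10 := mul_pos h8 h9
    rw [h2] at h4
    rw [h3]
    nlinarith
  have hum : Continuous u := INT.SmoothFn.continuous hu.smooth
  have hvm : Continuous v := INT.SmoothFn.continuous hv.smooth
  have hme : AEMeasurable (fun z => ENNReal.ofReal (Real.exp (-(2 * p * δ * v (e.symm z)))))
      (volume.restrict K) := by
    have hc : ContinuousOn (fun z => Real.exp (-(2 * p * δ * v (e.symm z)))) K := by
      refine Real.continuous_exp.comp_continuousOn (ContinuousOn.neg ?_)
      exact continuousOn_const.mul (hvm.comp_continuousOn (e.continuousOn_symm.mono hKe))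
    exact (hc.aemeasurable hK.measurableSet).ennreal_ofReal
  calc ∫⁻ z in K, ENNReal.ofReal
        (Real.exp (-(p * ((1 - δ) * u (e.symm z) + δ * v (e.symm z)))))
      ≤ ∫⁻ z in K, (ENNReal.ofReal (Real.exp (2 * p * |C₀|)) *
        ENNReal.ofReal (Real.exp (-(2 * p * u (e.symm z)))) +
        ENNReal.ofReal (Real.exp (-(2 * p * δ * v (e.symm z))))) := lintegral_mono hpt
    _ = (ENNReal.ofReal (Real.exp (2 * p * |C₀|)) *
        ∫⁻ z in K, ENNReal.ofReal (Real.exp (-(2 * p * u (e.symm z))))) +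
        ∫⁻ z in K, ENNReal.ofReal (Real.exp (-(2 * p * δ * v (e.symm z)))) := by
        rw [lintegral_add_right' _ hme, lintegral_const_mul' _ _ ENNReal.ofReal_ne_top]
    _ ≤ _ := by
        gcongr
        · exact hBu u hu
        · exact hBv v hv hq _ hδa

end Vale.Agent.P301.H599.ZL
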