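import Vale.Agent.P301.H599.ZL.Env
import Vale.Agent.P301.H599.ZL.Quant

/-! P301, H599 (ZL): CY-MAIN for nef line bundles with a plurisubharmonic metric with zero Lelong
numbers. -/

open scoped Manifold ContDiff ComplexOrder Topology ENNReal
open Filter Metric Set MeasureTheory

set_option linter.all false

noncomputable section

namespace Vale.Agent.P301.H599.ZL

open Vale.Agent.P272.K Vale.Agent.P272.K.QN Vale.Agent.P301.H599

variable {d : ℕ} {X : Type} [TopologicalSpace X] [ChartedSpace (Cm d) X]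
  [IsManifold 𝓘(ℂ, Cm d) ω X] [T2Space X] [CompactSpace X] {ι : Type}
  {L : LineBundle d X ι} {ρ : ι → X → ℝ} {ψ : ι → X → EReal} {w : Fm d X}

/-- the curvature estimate, pure linear algebra -/
lemma curv_psd' {Th W DU DV : Matrix (Fin d) (Fin d) ℂ} {ε δ : ℝ} (hε : 0 < ε) (hδ1 : δ ≤ 1)
    (hW : W.PosSemidef) (h1 : (Th + ((ε / 2 : ℝ) : ℂ) • W + DU).PosSemidef) :
    ((Th + (((1 - δ : ℝ) : ℂ) • DU + (δ : ℂ) • DV)) + ((1 * ε : ℝ) : ℂ) • W -
      (δ : ℂ) • (Th + (ε : ℂ) • W + DV)).PosSemidef := by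
  have key : (Th + (((1 - δ : ℝ) : ℂ) • DU + (δ : ℂ) • DV)) + ((1 * ε : ℝ) : ℂ) • W -
      (δ : ℂ) • (Th + (ε : ℂ) • W + DV) =
      (1 - δ) • (Th + ((ε / 2 : ℝ) : ℂ) • W + DU) + ((1 - δ) * (ε / 2)) • W := by
    ext a b
    simp only [Matrix.add_apply, Matrix.sub_apply, Matrix.smul_apply, smul_eq_mul,
      Complex.real_smul]
    push_cast
    ring
  rw [key]
  have h2 : 0 ≤ 1 - δ := by linarith
  exact (h1.smul h2).add (hW.smul (by positivity))

/-- the approximating functions -/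
theorem exists_U [Nonempty X] (hw : IsKahler w) (hρ : IsMetric L ρ)
    (hnef : H450.IsNef w (curvature L ρ)) (hψ : IsPshMetric L ψ) (hz : ZeroLel (d := d) L ψ)
    {A₀ : ℝ} (hA₀ : 0 ≤ A₀)
    (hA : ∀ e x, At e x → ((A₀ : ℂ) • w e (e x) - curvature L ρ e (e x)).PosSemidef) :
    ∃ C₀ : ℝ, ∀ ε : ℝ, 0 < ε → ε ≤ 1 → ∃ U : X → ℝ, Fz L ρ ψ w (A₀ + 1) C₀ U ∧
      ∀ e x, At e x → (tw L ρ w ε U e (e x)).PosDef := by
  obtain ⟨C, hC, -⟩ := exists_contact hρ hψ hz.exists_fin
  refine ⟨C + d * Real.log (A₀ + 1), fun ε hε0 hε1 => ?_⟩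
  obtain ⟨u, hu, hupsd⟩ := hnef (ε / 2) (by positivity)
  have hus : Smooth (d := d) u := hu
  have hpos : ∀ e x, At e x → (tw L ρ w ε u e (e x)).PosDef := by
    intro e x hx
    have h1 : tw L ρ w ε u e (e x) = (ε / 2) • w e (e x) + (curvature L ρ e (e x) +
        ((ε / 2 : ℝ) : ℂ) • w e (e x) + ddc u e (e x)) := by
      unfold tw
      ext a b
      simp only [Matrix.add_apply, Matrix.smul_apply, smul_eq_mul, Complex.real_smul]
      push_cast
      ring
    rw [h1]
    exact ((hw.posDef e x hx).smul (by positivity)).add_posSemidef (hupsd e x hx)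
  set lam : ℝ := max 1 (-(d * Real.log ε)) with hlam
  have hl1 : 1 ≤ lam := le_max_left _ _
  obtain ⟨U, hUs, hK, hdet⟩ := exists_env hρ hw (lam := lam) (C := C) (by linarith) hus hpos
  refine ⟨U, ⟨hUs, fun e x hx => ?_, fun x => ?_, ?_⟩, hK.posDef⟩
  · have h1 : cHess (fun z => U (e.symm z)) (e x) + ((A₀ + 1 : ℝ) : ℂ) • w e (e x) =
        tw L ρ w ε U e (e x) + ((A₀ : ℂ) • w e (e x) - curvature L ρ e (e x)) +
        (1 - ε) • w e (e x) := by
      have h2 : cHess (fun z => U (e.symm z)) (e x) = ddc U e (e x) := rfl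
      rw [h2]
      unfold tw
      ext a b
      simp only [Matrix.add_apply, Matrix.sub_apply, Matrix.smul_apply, smul_eq_mul,
        Complex.real_smul]
      push_cast
      ring
    rw [h1]
    exact ((hK.posDef e x hx).posSemidef.add (hA e x hx)).add
      ((hw.posDef e x hx).posSemidef.smul (by linarith))
  · exact env_upper hρ hw hA₀ hA hε1 hl1 hUs hK hdet x
  · exact env_lower hρ hw hψ hz.exists_fin hε0 (by linarith) (le_max_right _ _) hC hUs hK hdet

/-- **CY-MAIN under zero Lelong numbers.** -/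
theorem exists_cy_zl [PreconnectedSpace X] [Nonempty X] (F : X → X) (hw : IsKahler w)
    (hρ : IsMetric L ρ) (hnef : H450.IsNef w (curvature L ρ)) (hψ : IsPshMetric L ψ)
    (hz : ZeroLel (d := d) L ψ) {n : ℕ} (hV : VolLow L ρ w n) {p : ℝ} (hp : 0 ≤ p) :
    CYStatement F L ρ w n 1 p := by
  classical
  have hcurv := isClosedForm_curvature hρ
  have hcurvH : ∀ e x, At e x → (curvature L ρ e (e x)).IsHermitian := fun e x hx =>
    curvature_isHermitian hρ hx
  obtain ⟨A₀, hA₀, hA₀'⟩ := exists_comparison_form hw.toIsHermitian hcurv.smooth hcurvH hcurv.form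
  obtain ⟨C₀, hC₀⟩ := exists_U hw hρ hnef hψ hz hA₀.le hA₀'
  obtain ⟨δ, hδ0, hδ1, hmix⟩ := exists_mix (L := L) (ρ := ρ) (ψ := ψ) (w := w) (A := A₀ + 1)
    (A' := A₀ + 1) (C₀ := C₀) hw hρ hz (by positivity) (by positivity) 0 hp
  obtain ⟨c₀, hc₀, hvol⟩ := hV
  set vol : ℝ := INT.intX (fun (e : Chart d X) z => (w e z).det.re) with hvol'
  have hvol0 : 0 ≤ vol := INT.intX_nonneg fun e x hx => (INT.posDef_det_re (hw.posDef e x hx)).1.le
  set K₁ : ℝ := INT.intX (fun e z => (tw L ρ w 2 (fun _ => 0) e z).det.re) with hK₁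
  set K₂ : ℝ := INT.intX (fun e z => ((w e z)⁻¹ * curvature L ρ e z).trace.re * (w e z).det.re) +
    d * vol with hK₂
  have key : ∀ ε : ℝ, ∃ (φ : X → ℝ) (τ : Fm d X), 0 < ε → ε ≤ 1 →
      CYApprox F L ρ w n 1 δ 1 |C₀| c₀ (max K₁ K₂) ε φ τ ∧
      ∃ (U : X → ℝ) (V : X → ℝ), Fz L ρ ψ w (A₀ + 1) C₀ U ∧ QPsh w (A₀ + 1) V ∧
        (∃ q, -0 ≤ V q) ∧ ∀ x, φ x = (1 - δ) * U x + δ * V x := by
    intro ε
    by_cases hε : 0 < ε ∧ ε ≤ 1
    swap
    · exact ⟨fun _ => 0, fun _ _ => 0, fun h1 h2 => (hε ⟨h1, h2⟩).elim⟩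
    obtain ⟨hε0, hε1⟩ := hε
    obtain ⟨U, hUF, hUpos⟩ := hC₀ (ε / 2) (by positivity) (by linarith)
    have hUs : Smooth (d := d) U := hUF.smooth
    have hpos : ∀ e x, At e x → (tw L ρ w ε U e (e x)).PosDef := by
      intro e x hx
      have h1 : tw L ρ w ε U e (e x) = tw L ρ w (ε / 2) U e (e x) + (ε / 2) • w e (e x) := by
        unfold tw
        ext a b
        simp only [Matrix.add_apply, Matrix.smul_apply, smul_eq_mul, Complex.real_smul]
        push_cast
        ring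
      rw [h1]
      exact (hUpos e x hx).add_posSemidef ((hw.posDef e x hx).posSemidef.smul (by positivity))
    obtain ⟨v, Cv, hvs, hv0, ⟨x₀, hx₀⟩, hCv, hτ, hdet⟩ := exists_cyMetric hρ hw hUs hpos
    set τ : Fm d X := tw L ρ w ε v with hτdef
    set φ : X → ℝ := fun x => (1 - δ) * U x + δ * v x with hφ
    have hφs : Smooth (d := d) φ := (hUs.const_mul (1 - δ)).add (hvs.const_mul δ)
    refine ⟨φ, τ, fun _ _ => ⟨⟨hφs, hτ, ?_, ?_, ?_, ?_, ?_⟩, U, v, hUF, ⟨hvs, ?_, hv0⟩,
      ⟨x₀, by rw [hx₀, neg_zero]⟩, fun x => rfl⟩⟩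
    · intro i e x hx hi
      have s2 : ContDiffAt ℝ 2 (fun z => ρ i (e.symm z)) (e x) :=
        (hρ.smooth i e x hx hi).of_le (by norm_cast)
      have h1 : cHess (fun z => ρ i (e.symm z) + φ (e.symm z)) (e x) =
          curvature L ρ e (e x) + ddc φ e (e x) := by
        have := cHess_add s2 (hφs.two e x hx)
        rw [curvature_eq hρ hx hi]
        exact this
      have h2 : ddc φ e (e x) = ((1 - δ : ℝ) : ℂ) • ddc U e (e x) + (δ : ℂ) • ddc v e (e x) := by
        have h3 := ddc_add (hUs.const_mul (1 - δ)) (hvs.const_mul δ) e x hx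
        have h4 := ddc_const_mul (1 - δ) hUs e x hx
        have h5 := ddc_const_mul δ hvs e x hx
        simp only [] at h3 h4 h5
        rw [h4, h5] at h3
        exact h3
      have h6 : pull (F^[0]) τ e (e x) = τ e (e x) :=
        pull_id (isClosedForm_tw hρ hw ε hvs).form e x hx
      have h7 : ((δ / (1 : ℕ) : ℝ) : ℂ) • ∑ j ∈ Finset.range 1, pull (F^[j]) τ e (e x) =
          (δ : ℂ) • (curvature L ρ e (e x) + (ε : ℂ) • w e (e x) + ddc v e (e x)) := by
        rw [Finset.sum_range_one, h6, Nat.cast_one, div_one]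
        rfl
      rw [h1, h2, h7]
      exact curv_psd' hε0 hδ1 (hw.posDef e x hx).posSemidef (hUpos e x hx).posSemidef
    · intro x
      have h1 : U x ≤ |C₀| := (hUF.upper x).trans (le_abs_self _)
      have h3 : (1 - δ) * U x ≤ (1 - δ) * |C₀| := mul_le_mul_of_nonneg_left h1 (by linarith)
      have h4 : (1 - δ) * |C₀| ≤ 1 * |C₀| :=
        mul_le_mul_of_nonneg_right (by linarith) (abs_nonneg _)
      have h5 : δ * v x ≤ 0 := mul_nonpos_of_nonneg_of_nonpos hδ0.le (hv0 x)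
      show (1 - δ) * U x + δ * v x ≤ |C₀|
      linarith
    · intro e x hx
      rw [hdet e x hx]
      exact mul_le_mul_of_nonneg_right (hvol ε hε0 hε1 v Cv hvs hτ hdet)
        (INT.posDef_det_re (hw.posDef e x hx)).1.le
    · exact (intX_det_add_le hρ hw hε1 hvs hτ).trans (le_max_left _ _)
    · rw [hτdef, intX_trace_tw hρ hw hvs]
      refine le_trans ?_ (le_max_right _ _)
      rw [hK₂]
      have h1 : ε * d * vol ≤ d * vol := by
        have : ε * (d * vol) ≤ 1 * (d * vol) :=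
          mul_le_mul_of_nonneg_right hε1 (mul_nonneg (Nat.cast_nonneg d) hvol0)
        linarith
      linarith
    · intro e x hx
      have h1 : cHess (fun z => v (e.symm z)) (e x) + ((A₀ + 1 : ℝ) : ℂ) • w e (e x) =
          τ e (e x) + ((A₀ : ℂ) • w e (e x) - curvature L ρ e (e x)) +
          (1 - ε) • w e (e x) := by
        have h2 : cHess (fun z => v (e.symm z)) (e x) = ddc v e (e x) := rfl
        rw [h2, hτdef]
        unfold tw
        ext a b
        simp only [Matrix.add_apply, Matrix.sub_apply, Matrix.smul_apply, smul_eq_mul,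
          Complex.real_smul]
        push_cast
        ring
      rw [h1]
      exact ((hτ.posDef e x hx).posSemidef.add (hA₀' e x hx)).add
        ((hw.posDef e x hx).posSemidef.smul (by linarith))
  choose φ τ hφτ using key
  refine ⟨δ, 1, |C₀|, c₀, max K₁ K₂, hδ0, hδ1, zero_le_one, hc₀, φ, τ,
    fun ε h0 h1 => (hφτ ε h0 h1).1, fun e he S hS hSe => ?_⟩
  obtain ⟨B', hB', hmixS⟩ := hmix e he S hS hSe
  refine ⟨B', hB', fun ε h0 h1 => ?_⟩
  obtain ⟨-, U, V, hU, hV, hq, hφ⟩ := hφτ ε h0 h1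
  simp only [hφ]
  exact hmixS U hU V hV hq δ hδ0.le le_rfl

variable [ConnectedSpace X] {s : Fm d X}

/-- **CY-MAIN** for nef line bundles with a plurisubharmonic metric with zero Lelong numbers on
irreducible holomorphic symplectic manifolds. -/
theorem cy_of_zl (F : X → X) (hs : IsSymplectic d X w s) (hρ : IsMetric L ρ) {n : ℕ}
    (hd : d = 2 * n) (hn : 0 < n) (hnef : H450.IsNef w (curvature L ρ))
    (hne : ¬ H450.IsExact (curvature L ρ)) (hψ : IsPshMetric L ψ)
    (hz : ∀ i (e : Chart d X) x, At e x → x ∈ L.U i → lelong (fun z => ψ i (e.symm z)) (e x) = 0)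
    {p : ℝ} (hp : 0 ≤ p) : CYStatement F L ρ w n 1 p := by
  haveI : Nonempty X := inferInstance
  exact exists_cy_zl F hs.kahler hρ hnef hψ hz (volLow hs hρ hd hn hnef hne) hp

end Vale.Agent.P301.H599.ZL
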