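import Vale.Agent.P301.H599.ZL.Touch
import Vale.Agent.P301.H599.Main
import Vale.Agent.P272.K.N.Compare

/-! P301, H599 (ZL): comparison of a plurisubharmonic singular metric with a smooth metric; the
points of contact. -/

open scoped Manifold ContDiff ComplexOrder Topology
open Filter Metric Set MeasureTheory

set_option linter.all false

noncomputable section

namespace Vale.Agent.P301.H599.ZL

open Vale.Agent.P272.K Vale.Agent.P272.K.QN Vale.Agent.P301.H599

lemma ereal_add_lt (a : EReal) (b r : ℝ) : a + ((-b : ℝ) : EReal) < (r : EReal) ↔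
    a < ((r + b : ℝ) : EReal) := by
  induction a with
  | bot => simp [EReal.bot_lt_coe]
  | top => simp
  | coe a =>
    rw [← EReal.coe_add, EReal.coe_lt_coe_iff, EReal.coe_lt_coe_iff]
    constructor <;> intro h <;> linarith

lemma ereal_add_le (a : EReal) (b r : ℝ) : a + ((-b : ℝ) : EReal) ≤ (r : EReal) ↔
    a ≤ ((r + b : ℝ) : EReal) := by
  induction a with
  | bot => simp
  | top =>
    rw [EReal.top_add_coe, top_le_iff, top_le_iff]
    exact ⟨fun h => (EReal.coe_ne_top _ h).elim, fun h => (EReal.coe_ne_top _ h).elim⟩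
  | coe a =>
    rw [← EReal.coe_add, EReal.coe_le_coe_iff, EReal.coe_le_coe_iff]
    constructor <;> intro h <;> linarith

lemma le_ereal_add (a : EReal) (b r : ℝ) : (r : EReal) ≤ a + ((-b : ℝ) : EReal) ↔
    ((r + b : ℝ) : EReal) ≤ a := by
  induction a with
  | bot => simp
  | top => simp
  | coe a =>
    rw [← EReal.coe_add, EReal.coe_le_coe_iff, EReal.coe_le_coe_iff]
    constructor <;> intro h <;> linarith

variable {d : ℕ} {X : Type} [TopologicalSpace X] [ChartedSpace (Cm d) X]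
  [IsManifold 𝓘(ℂ, Cm d) ω X] {ι : Type} {L : LineBundle d X ι} {ρ : ι → X → ℝ}
  {ψ : ι → X → EReal}

/-- the function `ψ - ρ` on `X` -/
def phi (L : LineBundle d X ι) (ρ : ι → X → ℝ) (ψ : ι → X → EReal) (x : X) : EReal :=
  ψ (L.cover x).choose x + ((-ρ (L.cover x).choose x : ℝ) : EReal)

lemma phi_eq (hρ : IsMetric L ρ) (hψ : IsPshMetric L ψ) {i : ι} {x : X} (hx : x ∈ L.U i) :
    phi L ρ ψ x = ψ i x + ((-ρ i x : ℝ) : EReal) := by
  unfold phi
  set j := (L.cover x).choose with hj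
  have hxj : x ∈ L.U j := (L.cover x).choose_spec
  rw [hψ.change j i x hxj hx, hρ.change j i x hxj hx, add_assoc, ← EReal.coe_add]
  congr 2
  ring

lemma phi_usc (hρ : IsMetric L ρ) (hψ : IsPshMetric L ψ) : UpperSemicontinuous (phi L ρ ψ) := by
  intro x
  obtain ⟨i, hi⟩ := L.cover x
  set e : Chart d X := chartAt (Cm d) x with he
  have hx : At e x := ⟨chart_mem_atlas _ _, mem_chart_source _ x⟩
  have hcont := rho_contAt hρ hx hi
  have hpsh := hψ.psh i e hx.1
  have hΩ := isOpen_dom L i e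
  have hxΩ : e x ∈ e.target ∩ e.symm ⁻¹' L.U i := by
    refine ⟨e.map_source hx.2, ?_⟩
    show e.symm (e x) ∈ L.U i
    rwa [e.left_inv hx.2]
  have hev : ∀ᶠ y in 𝓝 x, y ∈ L.U i := (L.isOpen i).mem_nhds hi
  have hev2 : ∀ᶠ y in 𝓝 x, y ∈ e.source := e.open_source.mem_nhds hx.2
  have hec : ContinuousAt e x := e.continuousAt hx.2
  have hψe : ∀ y ∈ e.source, ψ i (e.symm (e y)) = ψ i y := fun y hy => by rw [e.left_inv hy]
  intro t ht
  -- the case of a real bound
  have hreal : ∀ r : ℝ, phi L ρ ψ x < (r : EReal) → ∀ᶠ y in 𝓝 x, phi L ρ ψ y < (r : EReal) := by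
    intro r hr
    rw [phi_eq hρ hψ hi, ereal_add_lt] at hr
    obtain ⟨s, hs1, hs2⟩ := EReal.lt_iff_exists_real_btwn.1 hr
    have h1 := hpsh.1 (e x) hxΩ s (by simp only []; rw [hψe x hx.2]; exact hs1)
    rw [hΩ.nhdsWithin_eq hxΩ] at h1
    have h2 : ∀ᶠ y in 𝓝 x, ψ i (e.symm (e y)) < (s : EReal) := hec.eventually h1
    have h3 : ∀ᶠ y in 𝓝 x, s - r < ρ i y := by
      refine hcont.eventually_const_lt ?_
      have := EReal.coe_lt_coe_iff.1 hs2
      linarith
    filter_upwards [hev, hev2, h2, h3] with y hy hye h2 h3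
    rw [phi_eq hρ hψ hy, ereal_add_lt]
    rw [hψe y hye] at h2
    refine h2.trans ?_
    rw [EReal.coe_lt_coe_iff]
    linarith
  obtain ⟨r, hr1, hr2⟩ := EReal.lt_iff_exists_real_btwn.1 ht
  exact (hreal r hr1).mono fun y hy => hy.trans hr2

/-- **Points of contact.** -/
theorem exists_contact [CompactSpace X] (hρ : IsMetric L ρ) (hψ : IsPshMetric L ψ)
    (hfin : ∃ i x, x ∈ L.U i ∧ ψ i x ≠ ⊥) :
    ∃ M : ℝ, (∀ i x, x ∈ L.U i → ψ i x ≤ ((ρ i x + M : ℝ) : EReal)) ∧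
      ∃ i x, x ∈ L.U i ∧ ((ρ i x + M : ℝ) : EReal) ≤ ψ i x := by
  obtain ⟨i₀, x₀, hx₀, hne⟩ := hfin
  obtain ⟨x₁, -, hmax⟩ := UpperSemicontinuousOn.exists_isMaxOn (s := (univ : Set X))
    ⟨x₀, mem_univ _⟩ isCompact_univ ((phi_usc hρ hψ).upperSemicontinuousOn univ)
  obtain ⟨i₁, hi₁⟩ := L.cover x₁
  have hbot : phi L ρ ψ x₁ ≠ ⊥ := by
    intro h
    have h1 : phi L ρ ψ x₀ ≤ phi L ρ ψ x₁ := hmax (mem_univ x₀)
    rw [h, le_bot_iff, phi_eq hρ hψ hx₀] at h1
    rw [EReal.add_eq_bot_iff] at h1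
    rcases h1 with h1 | h1
    · exact hne h1
    · exact EReal.coe_ne_bot _ h1
  have htop : phi L ρ ψ x₁ ≠ ⊤ := by
    rw [phi_eq hρ hψ hi₁]
    have h1 : ψ i₁ x₁ ≠ ⊤ := by
      set e : Chart d X := chartAt (Cm d) x₁ with he
      have hx : At e x₁ := ⟨chart_mem_atlas _ _, mem_chart_source _ x₁⟩
      have h2 := (hψ.psh i₁ e hx.1).2.1 (e x₁) ⟨e.map_source hx.2, by
        show e.symm (e x₁) ∈ L.U i₁
        rwa [e.left_inv hx.2]⟩
      simp only [] at h2
      rwa [e.left_inv hx.2] at h2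
    intro h2
    induction h : ψ i₁ x₁ with
    | bot => rw [h] at h2; simp at h2
    | top => exact h1 h
    | coe a => rw [h, ← EReal.coe_add] at h2; exact EReal.coe_ne_top _ h2
  obtain ⟨M, hM⟩ : ∃ M : ℝ, phi L ρ ψ x₁ = (M : EReal) := ⟨_, (EReal.coe_toReal htop hbot).symm⟩
  refine ⟨M, fun i x hx => ?_, i₁, x₁, hi₁, ?_⟩
  · have h1 : phi L ρ ψ x ≤ phi L ρ ψ x₁ := hmax (mem_univ x)
    rw [hM, phi_eq hρ hψ hx, ereal_add_le, add_comm] at h1
    exact h1
  · have h1 : (M : EReal) ≤ phi L ρ ψ x₁ := hM.symm.le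
    rw [phi_eq hρ hψ hi₁, le_ereal_add, add_comm] at h1
    exact h1

/-- the curvature of a smooth metric is semipositive at the points of contact -/
theorem psd_of_contact (hρ : IsMetric L ρ) (hψ : IsPshMetric L ψ) {M : ℝ}
    (hM : ∀ i x, x ∈ L.U i → ψ i x ≤ ((ρ i x + M : ℝ) : EReal)) {i : ι} {x : X} (hx : x ∈ L.U i)
    (hc : ((ρ i x + M : ℝ) : EReal) ≤ ψ i x) (e : Chart d X) (he : At e x) :
    (cHess (fun z => ρ i (e.symm z)) (e x)).PosSemidef := by
  have hΩ := isOpen_dom L i e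
  have hxΩ : e x ∈ e.target ∩ e.symm ⁻¹' L.U i := by
    refine ⟨e.map_source he.2, ?_⟩
    show e.symm (e x) ∈ L.U i
    rwa [e.left_inv he.2]
  have hs := hρ.smooth i e x he hx
  have h1 := psd_of_touch (f := fun z => ρ i (e.symm z) + M) hΩ (hψ.psh i e he.1) hxΩ
    (hs.add contDiffAt_const) (by
      show ((ρ i (e.symm (e x)) + M : ℝ) : EReal) ≤ ψ i (e.symm (e x))
      rw [e.left_inv he.2]; exact hc)
    (by
      filter_upwards [hΩ.mem_nhds hxΩ] with z hz
      exact hM i _ hz.2)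
  have h2 : ContDiffAt ℝ 2 (fun z => ρ i (e.symm z)) (e x) := hs.of_le (by norm_cast)
  have h3 := cHess_add h2 (contDiffAt_const (c := M))
  rw [N.cHess_const M, add_zero] at h3
  rw [h3] at h1
  exact h1

end Vale.Agent.P301.H599.ZL
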