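import Vale.Agent.P301.H599.ZL.Contact
import Vale.Agent.P301.H599.CY5
import Vale.Agent.P272.K.Asm.Final
import Vale.Agent.P272.K.N.MaxP
import Vale.Agent.P301.H897.Inst

/-! P301, H599 (ZL): smooth functions close to the envelope, by the Aubin-Yau theorem. -/

open scoped Manifold ContDiff ComplexOrder Topology
open Filter Metric Set MeasureTheory

set_option linter.all false

noncomputable section

namespace Vale.Agent.P301.H599.ZL

open Vale.Agent.P272.K Vale.Agent.P272.K.QN Vale.Agent.P301.H599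

variable {d : ℕ} {X : Type} [TopologicalSpace X] [ChartedSpace (Cm d) X]
  [IsManifold 𝓘(ℂ, Cm d) ω X] [T2Space X] [CompactSpace X] {ι : Type}
  {L : LineBundle d X ι} {ρ : ι → X → ℝ} {w : Fm d X}

lemma det_re_smul {r : ℝ} (M : Matrix (Fin d) (Fin d) ℂ) :
    ((r : ℂ) • M).det.re = r ^ d * M.det.re := by
  rw [Matrix.det_smul, Fintype.card_fin, ← Complex.ofReal_pow, Complex.re_ofReal_mul]

/-- **The twisted Aubin-Yau equation** `(θ + ε w + i∂∂̄U)^d = exp (lam (U - C)) w^d`. -/
theorem exists_env (hρ : IsMetric L ρ) (hw : IsKahler w) {ε lam C : ℝ} (hl : 0 < lam) {u : X → ℝ}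
    (hu : Smooth (d := d) u) (hpos : ∀ e x, At e x → (tw L ρ w ε u e (e x)).PosDef) :
    ∃ U : X → ℝ, Smooth (d := d) U ∧ IsKahler (tw L ρ w ε U) ∧ ∀ e x, At e x →
      (tw L ρ w ε U e (e x)).det.re = Real.exp (lam * (U x - C)) * (w e (e x)).det.re := by
  have hχc := isClosedForm_tw (L := L) hρ hw ε hu
  have hχ : IsKahler (tw L ρ w ε u) := isKahler_of_closed hχc hpos
  set χl : Fm d X := fun e z => (lam : ℂ) • tw L ρ w ε u e z with hχl
  have hχlc : INT.IsClosedForm χl := INT.IsClosedForm.smul lam hχc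
  have hχlK : IsKahler χl := isKahler_of_closed hχlc fun e x hx =>
    posDef_ofReal_smul (hpos e x hx) hl
  have hcan := isCanonical_ldet (X := X) hw.toIsHermitian
  set G : X → ℝ := fun x => ricPot (tw L ρ w ε u) (fun e z => Real.log (w e z).det.re) x +
    (lam * u x - lam * C) with hG
  have hGs : SmoothFn (n := d) G := by
    have h1 : Smooth (d := d) (ricPot (tw L ρ w ε u) (fun e z => Real.log (w e z).det.re)) :=
      smoothFn_ricPot hχ.toIsHermitian hcan
    have h2 : Smooth (d := d) (fun x => lam * u x - lam * C) :=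
      (hu.const_mul lam).sub (Smooth.const _)
    exact h1.add h2
  obtain ⟨v, hv, hvpos, hveq⟩ := aubinYau d X χl hχlK G hGs
  have hvs : Smooth (d := d) v := hv
  set U : X → ℝ := fun x => u x + lam⁻¹ * v x with hU
  have hUs : Smooth (d := d) U := hu.add (hvs.const_mul lam⁻¹)
  have key : ∀ e x, At e x → tw L ρ w ε U e (e x) = ((lam⁻¹ : ℝ) : ℂ) • addH χl v e (e x) := by
    intro e x hx
    have h1 := ddc_add hu (hvs.const_mul lam⁻¹) e x hx
    have h2 := ddc_const_mul lam⁻¹ hvs e x hx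
    simp only [] at h1 h2
    rw [h2] at h1
    show curvature L ρ e (e x) + (ε : ℂ) • w e (e x) + ddc U e (e x) =
      ((lam⁻¹ : ℝ) : ℂ) • ((lam : ℂ) • (curvature L ρ e (e x) + (ε : ℂ) • w e (e x) +
        ddc u e (e x)) + ddc v e (e x))
    have h3 : ddc U e (e x) = ddc u e (e x) + ((lam⁻¹ : ℝ) : ℂ) • ddc v e (e x) := h1
    rw [h3, smul_add, smul_smul]
    have h4 : ((lam⁻¹ : ℝ) : ℂ) * (lam : ℂ) = 1 := by
      rw [← Complex.ofReal_mul, inv_mul_cancel₀ hl.ne', Complex.ofReal_one]
    rw [h4, one_smul]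
    abel
  refine ⟨U, hUs, isKahler_of_closed (isClosedForm_tw hρ hw ε hUs) fun e x hx => ?_,
    fun e x hx => ?_⟩
  · rw [key e x hx]
    exact posDef_ofReal_smul (hvpos e x hx) (by positivity)
  · have h1 := hveq e x hx
    have h2 : 0 < (addH χl v e (e x)).det.re := (INT.posDef_det_re (hvpos e x hx)).1
    have h3 : 0 < (tw L ρ w ε u e (e x)).det.re := (INT.posDef_det_re (hpos e x hx)).1
    have h4 : 0 < (w e (e x)).det.re := (INT.posDef_det_re (hw.posDef e x hx)).1
    have h5 : (χl e (e x)).det.re = lam ^ d * (tw L ρ w ε u e (e x)).det.re := det_re_smul _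
    have h6 : G x = Real.log (w e (e x)).det.re - Real.log (tw L ρ w ε u e (e x)).det.re +
        (lam * u x - lam * C) := by
      rw [hG]
      simp only []
      rw [ricPot_eq hχ.toIsHermitian hcan hx]
    rw [key e x hx, det_re_smul]
    have h7 : Real.log (addH χl v e (e x)).det.re = Real.log (lam ^ d) +
        (lam * (U x - C) + Real.log (w e (e x)).det.re) := by
      rw [h5, Real.log_mul (by positivity) h3.ne', h6] at h1
      have h8 : lam * (U x - C) = lam * u x + v x - lam * C := by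
        rw [hU]; field_simp
      rw [h8]
      linarith
    rw [← Real.exp_log h2, h7, Real.exp_add, Real.exp_log (by positivity), Real.exp_add,
      Real.exp_log h4, ← mul_assoc, ← mul_pow, inv_mul_cancel₀ hl.ne', one_pow, one_mul]

/-- a bound for the determinant -/
lemma det_le_smul {A W : Matrix (Fin d) (Fin d) ℂ} {r : ℝ} (hA : A.PosDef)
    (h : ((r : ℂ) • W - A).PosSemidef) : A.det.re ≤ r ^ d * W.det.re := by
  have h1 := det_le_add hA h
  rw [add_sub_cancel] at h1
  rwa [det_re_smul] at h1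

/-- **Upper bound** by the maximum principle. -/
theorem env_upper [Nonempty X] (hρ : IsMetric L ρ) (hw : IsKahler w) {A₀ : ℝ} (hA₀ : 0 ≤ A₀)
    (hA : ∀ e x, At e x → ((A₀ : ℂ) • w e (e x) - curvature L ρ e (e x)).PosSemidef)
    {ε lam C : ℝ} (hε1 : ε ≤ 1) (hl : 1 ≤ lam) {U : X → ℝ} (hU : Smooth (d := d) U)
    (hK : IsKahler (tw L ρ w ε U))
    (hdet : ∀ e x, At e x →
      (tw L ρ w ε U e (e x)).det.re = Real.exp (lam * (U x - C)) * (w e (e x)).det.re) (x : X) :
    U x ≤ C + d * Real.log (A₀ + 1) := by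
  have hUc : Continuous U := Smooth.cont hU
  obtain ⟨x₁, -, hmax⟩ := isCompact_univ.exists_isMaxOn (s := (univ : Set X))
    ⟨x, mem_univ _⟩ hUc.continuousOn
  have h1 : U x ≤ U x₁ := hmax (mem_univ x)
  refine h1.trans ?_
  set e : Chart d X := chartAt (Cm d) x₁ with he
  have hx : At e x₁ := ⟨chart_mem_atlas _ _, mem_chart_source _ x₁⟩
  have hloc : IsLocalMax (fun z => U (e.symm z)) (e x₁) := by
    filter_upwards with z
    show U (e.symm z) ≤ U (e.symm (e x₁))
    rw [e.left_inv hx.2]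
    exact hmax (mem_univ _)
  have h2 : (-ddc U e (e x₁)).PosSemidef :=
    N.neg_cHess_posSemidef ((hU e x₁ hx).of_le (by norm_cast)) hloc
  have h3 : (((A₀ + 1 : ℝ) : ℂ) • w e (e x₁) - tw L ρ w ε U e (e x₁)).PosSemidef := by
    have h4 : ((A₀ + 1 : ℝ) : ℂ) • w e (e x₁) - tw L ρ w ε U e (e x₁) =
        ((A₀ : ℂ) • w e (e x₁) - curvature L ρ e (e x₁)) + (-ddc U e (e x₁)) +
        (1 - ε) • w e (e x₁) := by
      unfold tw
      ext a b
      simp only [Matrix.add_apply, Matrix.sub_apply, Matrix.smul_apply, Matrix.neg_apply,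
        smul_eq_mul, Complex.real_smul]
      push_cast
      ring
    rw [h4]
    exact ((hA e x₁ hx).add h2).add ((hw.posDef e x₁ hx).posSemidef.smul (by linarith))
  have h5 := det_le_smul (hK.posDef e x₁ hx) h3
  have h6 : 0 < (w e (e x₁)).det.re := (INT.posDef_det_re (hw.posDef e x₁ hx)).1
  rw [hdet e x₁ hx] at h5
  have h7 : Real.exp (lam * (U x₁ - C)) ≤ (A₀ + 1) ^ d := le_of_mul_le_mul_right h5 h6
  have h8 : lam * (U x₁ - C) ≤ d * Real.log (A₀ + 1) := by
    have := Real.log_le_log (Real.exp_pos _) h7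
    rwa [Real.log_exp, Real.log_pow] at this
  have h9 : 0 ≤ (d : ℝ) * Real.log (A₀ + 1) :=
    mul_nonneg (Nat.cast_nonneg d) (Real.log_nonneg (by linarith))
  by_contra hcon
  push Not at hcon
  have h10 : 0 < U x₁ - C := by linarith
  nlinarith

variable {ψ : ι → X → EReal}

/-- **Lower bound**, at the point of contact. -/
theorem env_lower (hρ : IsMetric L ρ) (hw : IsKahler w) (hψ : IsPshMetric L ψ)
    (hfin : ∃ i x, x ∈ L.U i ∧ ψ i x ≠ ⊥) {ε lam C : ℝ} (hε : 0 < ε) (hl : 0 < lam)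
    (hle : -(d * Real.log ε) ≤ lam) (hC : ∀ i x, x ∈ L.U i → ψ i x ≤ ((ρ i x + C : ℝ) : EReal))
    {U : X → ℝ} (hU : Smooth (d := d) U) (hK : IsKahler (tw L ρ w ε U))
    (hdet : ∀ e x, At e x →
      (tw L ρ w ε U e (e x)).det.re = Real.exp (lam * (U x - C)) * (w e (e x)).det.re) :
    ∀ i x, x ∈ L.U i → ψ i x ≤ ((ρ i x + (U x + 1) : ℝ) : EReal) := by
  have hρU : IsMetric L (fun i x => ρ i x + U x) := H897.IsMetric.add hρ hU
  obtain ⟨M, hM, i, x, hx, hMx⟩ := exists_contact hρU hψ hfin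
  set e : Chart d X := chartAt (Cm d) x with he
  have hat : At e x := ⟨chart_mem_atlas _ _, mem_chart_source _ x⟩
  have h1 := psd_of_contact hρU hψ hM hx hMx e hat
  have h2 : cHess (fun z => ρ i (e.symm z) + U (e.symm z)) (e x) =
      curvature L ρ e (e x) + ddc U e (e x) := by
    have h3 : ContDiffAt ℝ 2 (fun z => ρ i (e.symm z)) (e x) :=
      (hρ.smooth i e x hat hx).of_le (by norm_cast)
    have h4 := cHess_add h3 (hU.two e x hat)
    rw [curvature_eq hρ hat hx]
    exact h4
  rw [h2] at h1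
  have h5 : ((ε : ℂ) • w e (e x)).PosDef := posDef_ofReal_smul (hw.posDef e x hat) hε
  have h6 := det_le_add h5 h1
  have h7 : (ε : ℂ) • w e (e x) + (curvature L ρ e (e x) + ddc U e (e x)) =
      tw L ρ w ε U e (e x) := by
    unfold tw; abel
  rw [h7, hdet e x hat, det_re_smul] at h6
  have h8 : 0 < (w e (e x)).det.re := (INT.posDef_det_re (hw.posDef e x hat)).1
  have h9 : ε ^ d ≤ Real.exp (lam * (U x - C)) := le_of_mul_le_mul_right h6 h8
  have h10 : d * Real.log ε ≤ lam * (U x - C) := by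
    have := Real.log_le_log (by positivity) h9
    rwa [Real.log_exp, Real.log_pow] at this
  have h11 : -1 ≤ U x - C := by
    by_contra hcon
    push Not at hcon
    nlinarith
  have h12 : M ≤ 1 := by
    have h13 := hMx.trans (hC i x hx)
    rw [EReal.coe_le_coe_iff] at h13
    linarith
  intro j y hy
  refine (hM j y hy).trans ?_
  rw [EReal.coe_le_coe_iff]
  linarith

end Vale.Agent.P301.H599.ZL
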