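import Vale.Agent.P301.H599.ZL.Or
import Vale.Agent.P301.H99.Lim3

/-! P301, H599 (ZL): drafts of the final statements. -/

open scoped Manifold ContDiff ComplexOrder Topology
open Filter Vale.Agent.P272.K Vale.Agent.P301.H599 Vale.Agent.P301.H99
open Vale.Agent.P301.H599.ZL (IsZeroLelong ChernNZ EffectiveOnlyL)
open Vale.Agent.P301.H450 (IsSecPow NoCommonFactor)

namespace Vale.Agent.P301.H599.ZL

/-- For every `d` there is `K > 0` with the following property. Let `Y n`, `n = 0, 1, 2, …`, be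
compact simply connected complex manifolds of dimension `d`, and `M n` line bundles on `Y n` such
that `Y n` is an irreducible holomorphic symplectic Kähler manifold and `M n` is preserved by a
parabolic automorphism of `Y n` (`IsParabolic`), or `M n` is nef and isotropic and its class
contains a closed positive current with zero Lelong numbers (`IsZeroLelong`). Let
the pair `(X, L)` of a compact complex manifold and a line bundle be a limit of the pairs
`(Y n, M n)`: in homeomorphisms `X ≃ Y n`, charts and transition functions of `(Y n, M n)` converge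
locally uniformly to charts and transition functions of `(X, L)`. Then the power `L^K` has a nonzero
holomorphic section `f`. -/
theorem finA :
    ∀ d : ℕ, ∃ K : ℕ, 0 < K ∧
      ∀ (X : Type) [TopologicalSpace X] [T2Space X] [CompactSpace X]
        [ChartedSpace (Cm d) X] [IsManifold 𝓘(ℂ, Cm d) ω X]
        (ι : Type) (L : LineBundle d X ι)
        (Y : ℕ → Type) [∀ n, TopologicalSpace (Y n)] [∀ n, T2Space (Y n)]
        [∀ n, CompactSpace (Y n)] [∀ n, SimplyConnectedSpace (Y n)]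
        [∀ n, ChartedSpace (Cm d) (Y n)] [∀ n, IsManifold 𝓘(ℂ, Cm d) ω (Y n)]
        (κ : ℕ → Type) (M : ∀ n, LineBundle d (Y n) (κ n)),
        (∀ n, IsParabolic (M n) ∨ IsZeroLelong (M n)) → IsLimit L Y κ M →
        ∃ f : ι → X → ℂ,
          (∀ i (e : Chart d X) x, At e x → x ∈ L.U i →
            AnalyticAt ℂ (fun z => f i (e.symm z)) (e x)) ∧
          (∀ i j x, x ∈ L.U i → x ∈ L.U j → f i x = L.g i j x ^ K * f j x) ∧
          ∃ i x, x ∈ L.U i ∧ f i x ≠ 0 := by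
  intro d
  refine ⟨(Vale.Agent.P301.H450.Mb d).factorial, Nat.factorial_pos _, ?_⟩
  intro X _ _ _ _ _ ι L Y _ _ _ _ _ _ κ M hM hlim
  obtain ⟨N, ⟨C⟩⟩ := hlim
  obtain ⟨F, hF, hne⟩ := C.one_sec (K := (Vale.Agent.P301.H450.Mb d).factorial) fun n => by
    obtain ⟨f, h1, h2, h3⟩ := sec_or (hM n)
    exact ⟨f, ⟨h1, h2⟩, h3⟩
  exact ⟨F, hF.1, hF.2, hne⟩

/-- Fourfolds. There is `K > 0` with the following properties. Let `Y` be an irreducible holomorphic
symplectic Kähler fourfold and `M` a line bundle on `Y` with `c₁(M) ≠ 0`, which is preserved by a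
parabolic automorphism of `Y` (`IsParabolic`), or which is nef and isotropic and whose class
contains a closed positive current with zero Lelong numbers (`IsZeroLelong`). Then `M^K` has two
linearly independent sections `f`, `g` whose divisors have no common component. If the pair `(X, L)`
of a compact complex manifold and a line bundle is a limit of such pairs `(Y n, M n)`, then `L^K`
has two linearly independent sections. -/
theorem finB :
    ∃ K : ℕ, 0 < K ∧
      (∀ (Y : Type) [TopologicalSpace Y] [T2Space Y] [CompactSpace Y] [SimplyConnectedSpace Y]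
        [ChartedSpace (Cm 4) Y] [IsManifold 𝓘(ℂ, Cm 4) ω Y] (κ : Type) (M : LineBundle 4 Y κ),
        (IsParabolic M ∨ IsZeroLelong M) → ChernNZ M →
        ∃ f g : κ → Y → ℂ, IsSecPow M K f ∧ IsSecPow M K g ∧
          (∀ α β : ℂ, (∀ i x, x ∈ M.U i → α * f i x + β * g i x = 0) → α = 0 ∧ β = 0) ∧
          NoCommonFactor M f g) ∧
      (∀ (X : Type) [TopologicalSpace X] [T2Space X] [CompactSpace X]
        [ChartedSpace (Cm 4) X] [IsManifold 𝓘(ℂ, Cm 4) ω X]
        (ι : Type) (L : LineBundle 4 X ι)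
        (Y : ℕ → Type) [∀ n, TopologicalSpace (Y n)] [∀ n, T2Space (Y n)]
        [∀ n, CompactSpace (Y n)] [∀ n, SimplyConnectedSpace (Y n)]
        [∀ n, ChartedSpace (Cm 4) (Y n)] [∀ n, IsManifold 𝓘(ℂ, Cm 4) ω (Y n)]
        (κ : ℕ → Type) (M : ∀ n, LineBundle 4 (Y n) (κ n)),
        (∀ n, (IsParabolic (M n) ∨ IsZeroLelong (M n)) ∧ ChernNZ (M n)) → IsLimit L Y κ M →
        ∃ f g : ι → X → ℂ, IsSecPow L K f ∧ IsSecPow L K g ∧
          ∀ α β : ℂ, (∀ i x, x ∈ L.U i → α * f i x + β * g i x = 0) → α = 0 ∧ β = 0) := by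
  refine ⟨Nat.factorial 50, Nat.factorial_pos _, ?_, ?_⟩
  · intro Y _ _ _ _ _ _ κ M hM hne
    exact mobile_four_or hM hne
  · intro X _ _ _ _ _ ι L Y _ _ _ _ _ _ κ M hM hlim
    obtain ⟨N, ⟨C⟩⟩ := hlim
    obtain ⟨F, G, hF, hG, hne⟩ := C.two_sec (K := Nat.factorial 50) fun n => by
      obtain ⟨f, g, h1, h2, h3, -⟩ := mobile_four_or (hM n).1 (hM n).2
      exact ⟨f, g, ⟨h1.1, h1.2⟩, ⟨h2.1, h2.2⟩, h3⟩
    exact ⟨F, G, ⟨hF.1, hF.2⟩, ⟨hG.1, hG.2⟩, hne⟩

/-- Sixfolds. -/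
theorem finC :
    ∃ K : ℕ, 0 < K ∧
      (∀ (Y : Type) [TopologicalSpace Y] [T2Space Y] [CompactSpace Y] [SimplyConnectedSpace Y]
        [ChartedSpace (Cm 6) Y] [IsManifold 𝓘(ℂ, Cm 6) ω Y] (κ : Type) (M : LineBundle 6 Y κ),
        (IsParabolic M ∨ IsZeroLelong M) → ChernNZ M → EffectiveOnlyL M →
        ∃ f g : κ → Y → ℂ, IsSecPow M K f ∧ IsSecPow M K g ∧
          (∀ α β : ℂ, (∀ i x, x ∈ M.U i → α * f i x + β * g i x = 0) → α = 0 ∧ β = 0) ∧
          NoCommonFactor M f g) ∧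
      (∀ (X : Type) [TopologicalSpace X] [T2Space X] [CompactSpace X]
        [ChartedSpace (Cm 6) X] [IsManifold 𝓘(ℂ, Cm 6) ω X]
        (ι : Type) (L : LineBundle 6 X ι)
        (Y : ℕ → Type) [∀ n, TopologicalSpace (Y n)] [∀ n, T2Space (Y n)]
        [∀ n, CompactSpace (Y n)] [∀ n, SimplyConnectedSpace (Y n)]
        [∀ n, ChartedSpace (Cm 6) (Y n)] [∀ n, IsManifold 𝓘(ℂ, Cm 6) ω (Y n)]
        (κ : ℕ → Type) (M : ∀ n, LineBundle 6 (Y n) (κ n)),
        (∀ n, (IsParabolic (M n) ∨ IsZeroLelong (M n)) ∧ ChernNZ (M n) ∧ EffectiveOnlyL (M n)) →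
        IsLimit L Y κ M →
        ∃ f g : ι → X → ℂ, IsSecPow L K f ∧ IsSecPow L K g ∧
          ∀ α β : ℂ, (∀ i x, x ∈ L.U i → α * f i x + β * g i x = 0) → α = 0 ∧ β = 0) := by
  refine ⟨Nat.factorial 357, Nat.factorial_pos _, ?_, ?_⟩
  · intro Y _ _ _ _ _ _ κ M hM hne ho
    exact mobile_six_or hM hne ho
  · intro X _ _ _ _ _ ι L Y _ _ _ _ _ _ κ M hM hlim
    obtain ⟨N, ⟨C⟩⟩ := hlim
    obtain ⟨F, G, hF, hG, hne⟩ := C.two_sec (K := Nat.factorial 357) fun n => by
      obtain ⟨f, g, h1, h2, h3, -⟩ := mobile_six_or (hM n).1 (hM n).2.1 (hM n).2.2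
      exact ⟨f, g, ⟨h1.1, h1.2⟩, ⟨h2.1, h2.2⟩, h3⟩
    exact ⟨F, G, ⟨hF.1, hF.2⟩, ⟨hG.1, hG.2⟩, hne⟩

end Vale.Agent.P301.H599.ZL
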