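import Vale.Agent.P301.H599.ZL.Contact
import Vale.Agent.P301.H794.NoPole
import Vale.Agent.P301.H599.Lelong

/-! P301, H599 (ZL): smooth functions above a plurisubharmonic metric with zero Lelong numbers:
uniform lower bounds at points of small balls. -/

open scoped Manifold ContDiff ComplexOrder Topology
open Filter Metric Set MeasureTheory

set_option linter.all false

noncomputable section

namespace Vale.Agent.P301.H599.ZL

open Vale.Agent.P272.K Vale.Agent.P272.K.QN Vale.Agent.P301.H599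

variable {d : ℕ} {X : Type} [TopologicalSpace X] [ChartedSpace (Cm d) X]
  [IsManifold 𝓘(ℂ, Cm d) ω X] {ι : Type}

/-- Smooth functions on `X` with a lower bound `-A w` for the complex Hessian, an upper bound,
and above the metric `ψ`. -/
structure Fz (L : LineBundle d X ι) (ρ : ι → X → ℝ) (ψ : ι → X → EReal) (w : Fm d X)
    (A C₀ : ℝ) (v : X → ℝ) : Prop where
  smooth : Smooth (d := d) v
  psd : ∀ e x, At e x → (cHess (fun z => v (e.symm z)) (e x) + (A : ℂ) • w e (e x)).PosSemidef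
  upper : ∀ x, v x ≤ C₀
  low : ∀ i x, x ∈ L.U i → ψ i x ≤ ((ρ i x + (v x + 1) : ℝ) : EReal)

variable {L : LineBundle d X ι} {ρ : ι → X → ℝ} {ψ : ι → X → EReal} {w : Fm d X} {A C₀ : ℝ}

/-- local lower bound for the Hessians -/
lemma exists_psd [CompactSpace X] (hw : IsKahler w) (hA : 0 ≤ A) {e : Chart d X}
    (he : e ∈ atlas (Cm d) X) {K : Set (Cm d)} (hK : IsCompact K) (hKe : K ⊆ e.target) :
    ∃ T : ℝ, 0 ≤ T ∧ ∀ v : X → ℝ, Fz L ρ ψ w A C₀ v → ∀ z ∈ K,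
      (cHess (fun z => v (e.symm z)) z + (T : ℂ) • (1 : Matrix (Fin d) (Fin d) ℂ)).PosSemidef := by
  obtain ⟨T, hT⟩ := exists_upper_one hw he hK hKe
  refine ⟨|A * T|, abs_nonneg _, fun v hv z hz => ?_⟩
  have h1 := hv.psd e _ (At.of_target he (hKe hz))
  rw [e.right_inv (hKe hz)] at h1
  have h2 := (hT z hz).smul hA
  have h3 := Matrix.PosSemidef.one (n := Fin d) (R := ℂ) |>.smul
    (show 0 ≤ |A * T| - A * T by linarith [le_abs_self (A * T)])
  have h4 : cHess (fun z => v (e.symm z)) z + ((|A * T| : ℝ) : ℂ) •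
      (1 : Matrix (Fin d) (Fin d) ℂ) = (cHess (fun z => v (e.symm z)) z + (A : ℂ) • w e z) +
      A • (((T : ℝ) : ℂ) • (1 : Matrix (Fin d) (Fin d) ℂ) - w e z) +
      (|A * T| - A * T) • (1 : Matrix (Fin d) (Fin d) ℂ) := by
    ext p q
    simp only [Matrix.add_apply, Matrix.sub_apply, Matrix.smul_apply, smul_eq_mul,
      Complex.real_smul]
    push_cast
    ring
  rw [h4]
  exact (h1.add h2).add h3

lemma Fz.cd {v : X → ℝ} (hv : Fz L ρ ψ w A C₀ v) {e : Chart d X}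
    (he : e ∈ atlas (Cm d) X) {z : Cm d} (hz : z ∈ e.target) :
    ContDiffAt ℝ ∞ (fun z => v (e.symm z)) z := by
  have := hv.smooth e _ (At.of_target he hz)
  rwa [e.right_inv hz] at this

/-- zero Lelong numbers: large values in small balls -/
lemma exists_large {u : Cm d → EReal} {a : Cm d} (h : lelong u a = 0) {δ : ℝ} (hδ : 0 < δ) :
    ∀ᶠ r in 𝓝[>] (0 : ℝ), ∃ z ∈ ball a r, ((δ * Real.log r : ℝ) : EReal) < u z := by
  have h0 : lelong u a < (δ : EReal) := by rw [h]; exact_mod_cast hδ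
  have h1 := eventually_lt_of_limsup_lt h0
  have h3 : ∀ᶠ r in 𝓝[>] (0:ℝ), Real.log r < 0 :=
    Real.tendsto_log_nhdsGT_zero.eventually_lt_atBot _
  filter_upwards [h1, h3] with r h1 h3
  by_contra! hcon
  have h2 : (⨆ z ∈ ball a r, u z) ≤ ((δ * Real.log r : ℝ) : EReal) := iSup₂_le fun z hz => hcon z hz
  have h4 := div_neg_le h3 h2
  rw [mul_div_cancel_right₀ _ h3.ne] at h4
  exact absurd (lt_of_le_of_lt h4 h1) (lt_irrefl _)

/-- the hypothesis on the Lelong numbers -/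
def ZeroLel (L : LineBundle d X ι) (ψ : ι → X → EReal) : Prop :=
  ∀ i (e : Chart d X) x, At e x → x ∈ L.U i → lelong (fun z => ψ i (e.symm z)) (e x) = 0

lemma ZeroLel.exists_fin [Nonempty X] (h : ZeroLel (d := d) L ψ) :
    ∃ i x, x ∈ L.U i ∧ ψ i x ≠ ⊥ := by
  obtain ⟨x⟩ := ‹Nonempty X›
  obtain ⟨i, hi⟩ := L.cover x
  set e : Chart d X := chartAt (Cm d) x with he
  have hx : At e x := ⟨chart_mem_atlas _ _, mem_chart_source _ x⟩
  have h1 := exists_large (h i e x hx hi) one_pos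
  have hΩ := isOpen_dom L i e
  have hxΩ : e x ∈ e.target ∩ e.symm ⁻¹' L.U i := by
    refine ⟨e.map_source hx.2, ?_⟩
    show e.symm (e x) ∈ L.U i
    rwa [e.left_inv hx.2]
  obtain ⟨R, hR, hball⟩ := Metric.isOpen_iff.1 hΩ (e x) hxΩ
  have h2 : ∀ᶠ r in 𝓝[>] (0:ℝ), r < R := by
    have : ∀ᶠ r in 𝓝 (0:ℝ), r < R := eventually_lt_nhds hR
    exact this.filter_mono nhdsWithin_le_nhds
  obtain ⟨r, ⟨z, hz, hzl⟩, hr⟩ := (h1.and h2).exists
  exact ⟨i, e.symm z, (hball (ball_subset_ball hr.le hz)).2, (lt_of_le_of_lt bot_le hzl).ne'⟩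

/-- the values of the members of the family at points of small balls -/
lemma exists_pt (hρ : IsMetric L ρ) (h : ZeroLel (d := d) L ψ) {e : Chart d X}
    (he : e ∈ atlas (Cm d) X) {c : Cm d} (hc : c ∈ e.target) {δ : ℝ} (hδ : 0 < δ) :
    ∃ B : ℝ, ∀ᶠ r in 𝓝[>] (0 : ℝ), ∃ z ∈ ball c r, ∀ v : X → ℝ, Fz L ρ ψ w A C₀ v →
      δ * Real.log r - B ≤ v (e.symm z) := by
  have hx : At e (e.symm c) := At.of_target he hc
  obtain ⟨i, hi⟩ := L.cover (e.symm c)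
  have h1 := exists_large (h i e _ hx hi) hδ
  rw [e.right_inv hc] at h1
  have hΩ := isOpen_dom L i e
  have hcΩ : c ∈ e.target ∩ e.symm ⁻¹' L.U i := ⟨hc, hi⟩
  have hs := hρ.smooth i e _ hx hi
  rw [e.right_inv hc] at hs
  have h2 : ∀ᶠ z in 𝓝 c, ρ i (e.symm z) < ρ i (e.symm c) + 1 :=
    hs.continuousAt.eventually_lt_const (by linarith)
  have h3 : ∀ᶠ z in 𝓝 c, ρ i (e.symm c) - 1 < ρ i (e.symm z) :=
    hs.continuousAt.eventually_const_lt (by linarith)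
  obtain ⟨R, hR, hball⟩ := Metric.nhds_basis_ball.mem_iff.1 (h2.and (hΩ.mem_nhds hcΩ))
  have h4 : ∀ᶠ r in 𝓝[>] (0:ℝ), r < R := by
    have : ∀ᶠ r in 𝓝 (0:ℝ), r < R := eventually_lt_nhds hR
    exact this.filter_mono nhdsWithin_le_nhds
  refine ⟨ρ i (e.symm c) + 2, ?_⟩
  filter_upwards [h1, h4] with r hr1 hr
  obtain ⟨z, hz, hzl⟩ := hr1
  refine ⟨z, hz, fun v hv => ?_⟩
  have h5 := hball (ball_subset_ball hr.le hz)
  have h6 := hzl.trans_le (hv.low i (e.symm z) h5.2.2)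
  rw [EReal.coe_lt_coe_iff] at h6
  have := h5.1
  linarith

/-- **Uniform slopes.** -/
theorem exists_slope (hρ : IsMetric L ρ) (h : ZeroLel (d := d) L ψ) {e : Chart d X}
    (he : e ∈ atlas (Cm d) X) {c : Cm d} {R₀ R₁ δ s : ℝ} (hR₀ : 0 < R₀) (h01 : R₀ < R₁)
    (hc : closedBall c R₁ ⊆ e.target) (hδ : 0 < δ) (hs : 0 < s) :
    ∃ r : ℝ, 0 < r ∧ r < s ∧ r < R₀ ∧ ∀ v : X → ℝ, Fz L ρ ψ w A C₀ v →
      ∃ z ∈ closedBall c r, ∀ y ∈ closedBall c R₀,
        v (e.symm y) ≤ v (e.symm z) + δ * Real.log (R₀ / r) := by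
  have hct : c ∈ e.target := hc (mem_closedBall_self (hR₀.le.trans h01.le))
  obtain ⟨B, hB⟩ := exists_pt (w := w) (A := A) (C₀ := C₀) hρ h he hct (half_pos hδ)
  have h1 : ∀ᶠ r in 𝓝[>] (0:ℝ), r < min s R₀ := by
    have : ∀ᶠ r in 𝓝 (0:ℝ), r < min s R₀ := eventually_lt_nhds (lt_min hs hR₀)
    exact this.filter_mono nhdsWithin_le_nhds
  have h2 : ∀ᶠ r in 𝓝[>] (0:ℝ), Real.log r ≤ -((C₀ + B - δ * Real.log R₀) / (δ / 2)) :=
    Real.tendsto_log_nhdsGT_zero.eventually_le_atBot _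
  have h3 : ∀ᶠ r in 𝓝[>] (0:ℝ), 0 < r := self_mem_nhdsWithin
  obtain ⟨r, ⟨z, hz, hzv⟩, hr1, hr2, hr3⟩ := (hB.and (h1.and (h2.and h3))).exists
  refine ⟨r, hr3, hr1.trans_le (min_le_left _ _), hr1.trans_le (min_le_right _ _), fun v hv =>
    ⟨z, ball_subset_closedBall hz, fun y hy => ?_⟩⟩
  have h4 := hzv v hv
  have h5 := hv.upper (e.symm y)
  rw [Real.log_div hR₀.ne' hr3.ne']
  have h6 : δ / 2 * Real.log r ≤ -(C₀ + B - δ * Real.log R₀) := by
    have h7 := mul_le_mul_of_nonneg_left hr2 (half_pos hδ).le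
    have h8 : δ / 2 * -((C₀ + B - δ * Real.log R₀) / (δ / 2)) = -(C₀ + B - δ * Real.log R₀) := by
      field_simp
    linarith
  nlinarith

/-- uniform lower bound at a point of every chart ball -/
lemma exists_low (hρ : IsMetric L ρ) (h : ZeroLel (d := d) L ψ) {e : Chart d X}
    (he : e ∈ atlas (Cm d) X) {c : Cm d} {R : ℝ} (hR : 0 < R) (hc : ball c R ⊆ e.target) :
    ∃ M : ℝ, ∀ v : X → ℝ, Fz L ρ ψ w A C₀ v → ∃ y ∈ ball c R, -M ≤ v (e.symm y) := by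
  obtain ⟨B, hB⟩ := exists_pt (w := w) (A := A) (C₀ := C₀) hρ h he (hc (mem_ball_self hR)) one_pos
  have h1 : ∀ᶠ r in 𝓝[>] (0:ℝ), r < R := by
    have : ∀ᶠ r in 𝓝 (0:ℝ), r < R := eventually_lt_nhds hR
    exact this.filter_mono nhdsWithin_le_nhds
  obtain ⟨r, ⟨z, hz, hzv⟩, hr⟩ := (hB.and h1).exists
  refine ⟨-(1 * Real.log r - B), fun v hv => ⟨z, ball_subset_ball hr.le hz, ?_⟩⟩
  have := hzv v hv
  linarith

end Vale.Agent.P301.H599.ZL
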