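import Vale.Agent.P301.H599.ZL.Main
import Vale.Agent.P301.H99.Par

/-! P301, H599 (ZL): the effective theorems for line bundles which are preserved by a parabolic
automorphism or have a metric with zero Lelong numbers. -/

open scoped Manifold ContDiff ComplexOrder Topology Matrix
open Filter Metric Set

set_option linter.all false

noncomputable section

namespace Vale.Agent.P301.H599.ZL

open Vale.Agent.P272.K Vale.Agent.P301.H599 Vale.Agent.P301.H450
open Vale.Agent.P301.H724 (HasSec)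
open Vale.Agent.P301.H949 (OnlyL)
open Vale.Agent.P301.H99 (IsParabolic)

/-- `c₁(L) ≠ 0` in `H²(X, ℝ)`: the curvature of a smooth metric on `L` is not `i∂∂̄u`. -/
def ChernNZ {d : ℕ} {X : Type} [TopologicalSpace X] [ChartedSpace (Cm d) X] {ι : Type}
    (L : LineBundle d X ι) : Prop :=
  ∀ ρ : ι → X → ℝ, IsMetric L ρ → ¬ SameClass (curvature L ρ) (fun _ _ => 0)

/-- Every effective line bundle on `X` has a class proportional to `c₁(L)`: if a line bundle `V`
has a nonzero holomorphic section, then `c₁(V) = t c₁(L)` with a real number `t`. -/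
def EffectiveOnlyL {d : ℕ} {X : Type} [TopologicalSpace X] [ChartedSpace (Cm d) X] {ι : Type}
    (L : LineBundle d X ι) : Prop :=
  ∀ ρ : ι → X → ℝ, IsMetric L ρ → ∀ (κ : Type) (V : LineBundle d X κ) (ρV : κ → X → ℝ),
    IsMetric V ρV →
    (∃ f : κ → X → ℂ, (∀ i (e : Chart d X) x, At e x → x ∈ V.U i →
        AnalyticAt ℂ (fun z => f i (e.symm z)) (e x)) ∧
      (∀ i j x, x ∈ V.U i → x ∈ V.U j → f i x = V.g i j x * f j x) ∧
      ∃ i x, x ∈ V.U i ∧ f i x ≠ 0) →
    ∃ t : ℝ, SameClass (curvature V ρV) (fun e z => (t : ℂ) • curvature L ρ e z)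

lemma not_exact_of {d : ℕ} {X : Type} [TopologicalSpace X] [ChartedSpace (Cm d) X] {ι : Type}
    {L : LineBundle d X ι} {ρ : ι → X → ℝ} (h : ChernNZ L) (hρ : IsMetric L ρ) :
    ¬ IsExact (curvature L ρ) := fun hex => h ρ hρ <| by
  obtain ⟨u, hu, hue⟩ := hex
  exact ⟨u, hu, fun e x hx => by rw [hue e x hx, zero_add]⟩

lemma onlyL_of {d : ℕ} {X : Type} [TopologicalSpace X] [ChartedSpace (Cm d) X] {ι : Type}
    {L : LineBundle d X ι} {ρ : ι → X → ℝ} (h : EffectiveOnlyL L) (hρ : IsMetric L ρ) :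
    OnlyL L ρ := fun κ V ρV hV hsec => h ρ hρ κ V ρV hV <| by
  obtain ⟨f, h1, h2, h3⟩ := hsec
  exact ⟨f, h1, fun i j x hi hj => by rw [h2 i j x hi hj, pow_one], h3⟩

/-- **Effective nonvanishing**. -/
theorem sec_or {d : ℕ} {X : Type} [TopologicalSpace X] [ChartedSpace (Cm d) X]
    [IsManifold 𝓘(ℂ, Cm d) ω X] [T2Space X] [CompactSpace X] [SimplyConnectedSpace X] {ι : Type}
    {L : LineBundle d X ι} (h : IsParabolic L ∨ IsZeroLelong L) : HasSec L (Mb d).factorial := by
  rcases h with ⟨w, s, ρ, F, c, hs, hρ, hc, hθ, hdd⟩ | h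
  · exact eff_nonvanishing hs hρ F hc hθ hdd
  · exact sec_zl h

/-- **Fourfolds**: a pencil without fixed divisor. -/
theorem mobile_four_or {X : Type} [TopologicalSpace X] [ChartedSpace (Cm 4) X]
    [IsManifold 𝓘(ℂ, Cm 4) ω X] [T2Space X] [CompactSpace X] [SimplyConnectedSpace X] {ι : Type}
    {L : LineBundle 4 X ι} (h : IsParabolic L ∨ IsZeroLelong L) (hne : ChernNZ L) :
    HasMobilePair L (Nat.factorial 50) := by
  rcases h with ⟨w, s, ρ, F, c, hs, hρ, hc, hθ, hdd⟩ | ⟨w, s, ρ, ψ, hs, hρ, hn, h0, hψ, hz⟩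
  · exact mobile_four_eff hs hρ F hc hθ hdd (not_exact_of hne hρ)
  · exact mobile_four_zl hs hρ hn h0 (not_exact_of hne hρ) hψ hz

/-- **Sixfolds**: a pencil without fixed divisor, if all effective classes are proportional to
`c₁(L)`. -/
theorem mobile_six_or {X : Type} [TopologicalSpace X] [ChartedSpace (Cm 6) X]
    [IsManifold 𝓘(ℂ, Cm 6) ω X] [T2Space X] [CompactSpace X] [SimplyConnectedSpace X] {ι : Type}
    {L : LineBundle 6 X ι} (h : IsParabolic L ∨ IsZeroLelong L) (hne : ChernNZ L)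
    (ho : EffectiveOnlyL L) : HasMobilePair L (Nat.factorial 357) := by
  rcases h with ⟨w, s, ρ, F, c, hs, hρ, hc, hθ, hdd⟩ | ⟨w, s, ρ, ψ, hs, hρ, hn, h0, hψ, hz⟩
  · exact H949.mobile_six_eff hs hρ F hc hθ hdd (not_exact_of hne hρ) (onlyL_of ho hρ)
  · exact mobile_six_zl hs hρ hn h0 (not_exact_of hne hρ) hψ hz (onlyL_of ho hρ)

end Vale.Agent.P301.H599.ZL
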