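import Vale.Agent.P301.H599.PshLim
import Vale.Agent.P272.K.Inv.Hess

/-! P301, H599 (ZL): a smooth function which touches a plurisubharmonic function from above has a
semipositive complex Hessian at the point of contact. -/

open scoped Manifold ContDiff ComplexOrder Topology
open Filter Metric Set MeasureTheory

set_option linter.all false

noncomputable section

namespace Vale.Agent.P301.H599.ZL

open Vale.Agent.P272.K Vale.Agent.P272.K.QN Vale.Agent.P301.H599

variable {d : ℕ}

/-- the radial retraction of `ℂ` onto the closed unit disc -/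
def retr (ζ : ℂ) : ℂ := ((max 1 ‖ζ‖)⁻¹ : ℝ) * ζ

lemma norm_retr_le (ζ : ℂ) : ‖retr ζ‖ ≤ 1 := by
  unfold retr
  have h1 : (0 : ℝ) < max 1 ‖ζ‖ := lt_of_lt_of_le one_pos (le_max_left _ _)
  rw [norm_mul, Complex.norm_real, Real.norm_of_nonneg (by positivity), inv_mul_le_iff₀ h1, mul_one]
  exact le_max_right _ _

lemma retr_of_norm {ζ : ℂ} (h : ‖ζ‖ = 1) : retr ζ = ζ := by
  unfold retr
  rw [h, max_self, inv_one, Complex.ofReal_one, one_mul]

lemma continuous_retr : Continuous retr := by
  unfold retr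
  refine Continuous.mul ?_ continuous_id
  refine Complex.continuous_ofReal.comp ?_
  refine Continuous.inv₀ (continuous_const.max continuous_norm) fun ζ => ?_
  exact (lt_of_lt_of_le one_pos (le_max_left (1 : ℝ) ‖ζ‖)).ne'

/-- **Contact from above.** -/
theorem psd_of_touch {Ω : Set (Cm d)} (hΩ : IsOpen Ω) {v : Cm d → EReal} (hv : IsPSH Ω v)
    {f : Cm d → ℝ} {a : Cm d} (ha : a ∈ Ω) (hf : ContDiffAt ℝ ∞ f a)
    (hva : ((f a : ℝ) : EReal) ≤ v a) (hle : ∀ᶠ z in 𝓝 a, v z ≤ ((f z : ℝ) : EReal)) :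
    (cHess f a).PosSemidef := by
  have hf2 : ContDiffAt ℝ 2 f a := hf.of_le (by norm_cast)
  have hH : (cHess f a).IsHermitian := cHess_isHermitian hf2
  have hd : DifferentiableAt ℝ (fderiv ℝ f) a :=
    (hf2.fderiv_right (m := 1) (by norm_num)).differentiableAt (by norm_num)
  have hsym : ∀ v w, fderiv ℝ (fderiv ℝ f) a v w = fderiv ℝ (fderiv ℝ f) a w v := by
    have := hf2.isSymmSndFDerivAt (by simp)
    intro v w; exact this.eq v w
  refine Matrix.PosSemidef.of_dotProduct_mulVec_nonneg hH fun x => ?_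
  rw [N.cHess_eq_lev hd, N.lev_quadratic hsym]
  set b : Cm d := star x with hb
  by_contra hneg
  rw [Complex.zero_le_real, not_le] at hneg
  set q : Cm d → ℝ := fun z => fderiv ℝ (fderiv ℝ f) z b b +
    fderiv ℝ (fderiv ℝ f) z (Complex.I • b) (Complex.I • b) with hq
  have hqa : q a < 0 := by
    have : q a / 4 < 0 := hneg
    linarith
  -- continuity of `q`
  have hc2 : ContinuousAt (fun z => fderiv ℝ (fderiv ℝ f) z) a := by
    have h1 : ContDiffAt ℝ 2 (fderiv ℝ f) a :=
      (hf.of_le (by norm_cast : (3 : WithTop ℕ∞) ≤ ∞)).fderiv_right (m := 2) (by norm_num)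
    exact (h1.fderiv_right (m := 1) (by norm_num)).continuousAt
  have hqc : ContinuousAt q a := by
    refine ContinuousAt.add ?_ ?_
    · exact ((hc2.clm_apply continuousAt_const).clm_apply continuousAt_const)
    · exact ((hc2.clm_apply continuousAt_const).clm_apply continuousAt_const)
  have hev : ∀ᶠ z in 𝓝 a, q z < q a / 2 ∧ ContDiffAt ℝ 2 f z ∧ z ∈ Ω ∧
      v z ≤ ((f z : ℝ) : EReal) := by
    refine (hqc.eventually_lt_const (by linarith)).and ?_
    have h3 : ∀ᶠ z in 𝓝 a, z ∈ Ω := hΩ.mem_nhds ha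
    exact (hf2.eventually (by simp)).and (h3.and hle)
  obtain ⟨R, hR, hball⟩ := Metric.nhds_basis_closedBall.mem_iff.1 hev
  -- the disc
  set r : ℝ := R / (‖b‖ + 1) with hr
  have hr0 : 0 < r := by positivity
  have hin : ∀ ζ : ℂ, ‖ζ‖ ≤ 1 → a + ζ • ((r : ℂ) • b) ∈ closedBall a R := by
    intro ζ hζ
    rw [mem_closedBall, dist_eq_norm, add_sub_cancel_left, norm_smul, norm_smul, Complex.norm_real,
      Real.norm_of_nonneg hr0.le]
    have h1 : r * ‖b‖ ≤ R := by
      rw [hr, div_mul_eq_mul_div, div_le_iff₀ (by positivity)]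
      nlinarith [norm_nonneg b]
    calc ‖ζ‖ * (r * ‖b‖) ≤ 1 * (r * ‖b‖) := by gcongr
      _ ≤ R := by linarith
  have hprop := fun ζ hζ => hball (hin ζ hζ)
  have hscale : ∀ z, ContDiffAt ℝ 2 f z → fderiv ℝ (fderiv ℝ f) z ((r : ℂ) • b) ((r : ℂ) • b) +
      fderiv ℝ (fderiv ℝ f) z (Complex.I • (r : ℂ) • b) (Complex.I • (r : ℂ) • b) =
      r ^ 2 * q z := by
    intro z hz
    have e1 : ((r : ℂ) • b : Cm d) = r • b := by ext i; simp
    have e2 : (Complex.I • (r : ℂ) • b : Cm d) = r • (Complex.I • b) := by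
      ext i; simp; ring
    rw [e2, e1]
    simp only [map_smul, ContinuousLinearMap.smul_apply, smul_eq_mul, hq]
    ring
  have key := H86.circle_submean_dir (f := fun z => -f z) (p := a) (w := (r : ℂ) • b)
    (a := r ^ 2 * q a / 8)
    (fun ζ hζ => (hprop ζ (by simpa using hζ)).2.1.neg)
    (fun ζ hζ => by
      have h1 := hprop ζ (by simpa using hζ)
      have h2 := hscale _ h1.2.1
      have e1 : fderiv ℝ (fun z => -f z) = fun z => -fderiv ℝ f z := by
        funext z; exact fderiv_fun_neg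
      rw [e1, fderiv_fun_neg]
      simp only [ContinuousLinearMap.neg_apply]
      have h3 : r ^ 2 * q (a + ζ • (r : ℂ) • b) ≤ r ^ 2 * (q a / 2) :=
        mul_le_mul_of_nonneg_left h1.1.le (by positivity)
      linarith)
  -- the submean inequality of `v`
  set g : ℂ → ℝ := fun ζ => f (a + retr ζ • ((r : ℂ) • b)) with hg
  have hgc : Continuous g := by
    rw [continuous_iff_continuousAt]
    intro ζ
    have h1 := (hprop _ (norm_retr_le ζ)).2.1.continuousAt
    have h2 : ContinuousAt (fun ζ : ℂ => a + retr ζ • ((r : ℂ) • b)) ζ := by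
      exact continuousAt_const.add (continuous_retr.continuousAt.smul continuousAt_const)
    exact ContinuousAt.comp (f := fun ζ : ℂ => a + retr ζ • ((r : ℂ) • b)) h1 h2
  have h5 := hv.2.2 a ((r : ℂ) • b) (fun ζ hζ => (hprop ζ hζ).2.2.1) g hgc (fun ζ hζ => by
    rw [hg]
    simp only [retr_of_norm hζ]
    exact (hprop ζ hζ.le).2.2.2)
  have h6 : f a ≤ Real.circleAverage g 0 1 := EReal.coe_le_coe_iff.1 (hva.trans h5)
  rw [Real.circleAverage_def] at h6
  have e2 : (∫ θ in (0:ℝ)..2 * Real.pi, g (circleMap 0 1 θ)) =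
      ∫ θ in (0:ℝ)..2 * Real.pi, f (a + Complex.exp (θ * Complex.I) • ((r : ℂ) • b)) := by
    refine intervalIntegral.integral_congr fun θ _ => ?_
    have h7 : ‖circleMap 0 1 θ‖ = 1 := by simp
    simp only [hg, retr_of_norm h7]
    simp only [circleMap, zero_add, Complex.ofReal_one, one_mul]
  have hper : Function.Periodic (fun θ : ℝ => f (a + Complex.exp (θ * Complex.I) • ((r : ℂ) • b)))
      (2 * Real.pi) := by
    intro θ
    simp only []
    congr 3
    push_cast
    rw [add_mul, Complex.exp_add, Complex.exp_two_pi_mul_I, mul_one]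
  have e1 := hper.intervalIntegral_add_eq (-Real.pi) 0
  rw [zero_add, show -Real.pi + 2 * Real.pi = Real.pi by ring] at e1
  rw [e2, smul_eq_mul, ← e1] at h6
  rw [intervalIntegral.integral_neg] at key
  set J := ∫ θ in (-Real.pi)..Real.pi, f (a + Complex.exp (θ * Complex.I) • ((r : ℂ) • b))
  have hpi : 0 < 2 * Real.pi := by positivity
  have h8 : 2 * Real.pi * f a ≤ J := by
    rw [inv_mul_eq_div, le_div_iff₀ hpi] at h6
    linarith
  have h9 : 2 * Real.pi * (r ^ 2 * q a / 8) < 0 :=
    mul_neg_of_pos_of_neg hpi (by nlinarith [pow_pos hr0 2])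
  linarith

end Vale.Agent.P301.H599.ZL
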